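import Vale.Agent.P280Z.Ld.Defs
import Vale.Agent.P281Z.B3.Bt
import Vale.Agent.P281Z.Mf.Sub

/-!
# P280Z, block LD: the theorem of Bertini (row BER)
-/

open scoped Manifold ContDiff Topology
open Set Filter MeasureTheory
open Vale.Agent.P272.K Vale.Agent.P285.H281.FD Vale.Agent.P281Z
open Vale.Agent.P277Z (at_chart)
open Vale.Agent.P277Z.Slc (LEq Snc IsDiv dd dd_mul dd_congr)
open Vale.Agent.P281Z.Lf.Bt

noncomputable section

namespace Vale.Agent.P280Z.Ld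

namespace BerH

theorem ae_lin {ι : Type} [Fintype ι] {w : ι → ℂ} {j : ι} (h : w j ≠ 0) :
    ∀ᵐ c : ι → ℂ, ∑ a, c a * w a ≠ 0 := by
  classical
  let φ : (ι → ℂ) →ₗ[ℂ] ℂ := ∑ a, w a • LinearMap.proj a
  have h1 : ∀ c, φ c = ∑ a, c a * w a := fun c => by simp [φ, mul_comm]
  have h2 := Measure.addHaar_submodule (volume : Measure (ι → ℂ))
    ((LinearMap.ker φ).restrictScalars ℝ) fun k => h (by
      have h3 : φ (Pi.single j 1) = 0 := k.ge (Submodule.mem_top (R := ℝ))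
      simpa [h1, Pi.single_apply] using h3)
  exact (measure_eq_zero_iff_ae_notMem.1 h2).mono fun c k k' => k ((h1 c).trans k')

/-- a section with simple zeros cuts out a hypersurface -/
theorem cut {n : ℕ} {V : Mf (n + 1)} {A : Bd V.X} {σ : A.ι → V.X → ℂ} (hA : IsLB (n + 1) A)
    (hσ : IsSec (n + 1) A σ) (h : ∀ y, ∃ (a : A.ι) (e : Chart (n + 1) V.X), y ∈ A.U a ∧ At e y ∧
      (σ a y = 0 → dd (σ a) e y ≠ 0)) : ∃ (Z : Mf n) (i : Z.X → V.X), Cut A σ i := by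
  have h4 : ∀ j, ∀ y ∈ A.U j, σ j y = 0 ↔ y ∈ {y | ¬ NZ A σ y} := fun j y hy =>
    ((not_congr (nz_iff hA (fun a b => hσ.change a b y) hy)).trans not_not).symm
  have h6 : ∀ j, ∀ y ∈ A.U j, LEq (n + 1) {y | ¬ NZ A σ y} y (σ j) := fun j y hy => by
    obtain ⟨j', e, a, he, b⟩ := h y
    refine LEq.of_chart ((lb_near hA hy).mono (h4 j)) (sec_hol hσ hy) he fun h0 => ?_
    have h0' := (h4 j' y a).2 ((h4 j y hy).1 h0)
    rw [dd_congr (((lb_near hA hy).and (lb_near hA a)).mono fun z k => hσ.change j j' z k.1 k.2)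
      he, dd_mul (lb_hol hA hy a) (sec_hol hσ a) h0' he]
    exact smul_ne_zero (hA.ne_zero _ _ y hy a) (b h0')
  obtain ⟨Z, i, hi⟩ := SubM.emb (n := n + 1) (d := n) (S := {y | ¬ NZ A σ y}) (fun y hy => by
    obtain ⟨j, hj⟩ := hA.cover y
    exact ⟨1, fun _ => σ j, rfl, ⟨fun _ => sec_hol hσ hj, fun e he =>
      linearIndependent_unique_iff.2 (((h6 j y hj).2 e he).2 ((h4 j y hj).2 hy))⟩,
      (h6 j y hj).1.mono fun z k => ⟨fun l _ => k.2 l, fun l => k.1 (l 0)⟩⟩)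
    (IsDiv.closed ⟨hA, hσ, h6⟩).isCompact
  exact ⟨Z, i, rfl, hA, hσ, hi, fun z a ha e he =>
    ((h6 a _ ha).2 e he).2 ((h4 a _ ha).2 (hi.rng.le (mem_range_self z)))⟩

end BerH

open BerH in
/-- row BER -/
theorem ber : BER := fun {n} V A ι _ s hA hs hB hd => by
  choose i hi using hA.cover
  have hG : Snc (n + 1) fun _ : Empty => (∅ : Set V.X) := fun _ =>
    ⟨Empty.elim, fun l => l.elim, fun a => a.1.elim, fun _ _ => linearIndependent_empty_type⟩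
  have h0 : ∀ y : V.X, ∃ U ∈ 𝓝 y, y ∉ Bs A s → ∀ᵐ c : ι → ℂ, ∀ z ∈ U,
      ∑ a, c a * s a (i y) z = 0 →
        dd (fun z => ∑ a, c a * s a (i y) z) (chartAt (Cm (n + 1)) z) z ≠ 0 := fun y => by
    by_cases h : y ∈ Bs A s
    · exact ⟨univ, univ_mem, fun k => (k h).elim⟩
    · obtain ⟨a, ha⟩ := not_forall.1 h
      obtain ⟨U, h1, h2⟩ := loc hG (fun a => sec_hol (hs a) (hi y)) (not_not.1 ha _ (hi y))
      exact ⟨U, h1, fun _ => h2.mono fun c k z hz k0 => (k z hz k0).elim fun _ l =>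
        (l.2.2 _ (at_chart z)).ne_zero none⟩
  choose U h2 h3 using h0
  obtain ⟨t, ht, hc, ht'⟩ := TopologicalSpace.countable_cover_nhdsWithin (s := (Bs A s)ᶜ)
    (f := fun x => U x ∩ A.U (i x)) fun x _ =>
      mem_nhdsWithin_of_mem_nhds (inter_mem (h2 x) (lb_near hA (hi x)))
  have h4 : ∀ x ∈ Bs A s, ∀ᵐ c : ι → ℂ, ∃ (a : A.ι) (e : Chart (n + 1) V.X), x ∈ A.U a ∧ At e x ∧
      dd (fun z => ∑ j, c j * s j a z) e x ≠ 0 := fun x hx => by
    obtain ⟨j, a, e, ha, he, k⟩ := hd x hx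
    obtain ⟨v, hv⟩ := DFunLike.ne_iff.1 k
    refine (ae_lin (w := fun j => dd (s j a) e x v) hv).mono fun c l => ⟨a, e, ha, he, fun m => l ?_⟩
    rw [← B3.BtH.dd_lin (fun j => sec_hol (hs j) ha) he, m]
    rfl
  filter_upwards [(ae_ball_iff hc).2 fun y hy => h3 y (ht hy), (ae_ball_iff hB).2 h4] with c k1 k2
  rw [show ∑ j, c j • s j = fun a x => ∑ j, c j * s j a x from funext fun a => funext fun x => by
    simp only [Finset.sum_apply, Pi.smul_apply, smul_eq_mul]]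
  refine cut hA (sec_sum hs c) fun y => ?_
  by_cases h : y ∈ Bs A s
  · exact (k2 y h).imp fun a l => l.imp fun e m => ⟨m.1, m.2.1, fun _ => m.2.2⟩
  · obtain ⟨z, a, b⟩ := mem_iUnion₂.1 (ht' h)
    exact ⟨_, _, b.2, at_chart y, k1 z a y b.1⟩

end Vale.Agent.P280Z.Ld
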