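import Vale.Agent.P280Z.Ld.Defs
import Vale.Agent.P281Z.Pb.Api
import Vale.Agent.P281Z.Pb.Kode
import Vale.Agent.P281Z.Pb.Ps
import Vale.Agent.P281Z.Sc.Sy

/-!
# P280Z, block LD: very ample line bundles and global generation
-/

open scoped Manifold ContDiff Topology
open Set Filter MeasureTheory
open Vale.Agent.P272.K Vale.Agent.P285.H281.FD Vale.Agent.P281Z
open Vale.Agent.P277Z (Hol at_chart)
open Vale.Agent.P277Z.Slc (dd dd_congr)
open Vale.Agent.P277.HD (pull)

noncomputable section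

namespace Vale.Agent.P280Z.Ld

section
variable {n m : ℕ} {X Z ι : Type} [TopologicalSpace X] [ChartedSpace (Cm m) X] {L : Bd X}

omit [TopologicalSpace X] in
theorem Va.nm_eq (s : L.ι → X → ℂ) {a : L.ι} {x : X} (h : x ∈ L.U a) : nm L s a x = s a x :=
  indicator_of_mem h _

theorem Va.nm_mem (hL : IsLB m L) {s : L.ι → X → ℂ} (hs : IsSec m L s) : nm L s ∈ Γ m L :=
  ⟨isSec_of (fun _ _ ha => (sec_hol hs ha).congr ((lb_near hL ha).mono fun _ hy =>
    (Va.nm_eq s hy).symm)) fun a b x ha hb => by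
      rw [Va.nm_eq s ha, Va.nm_eq s hb, hs.change a b x ha hb],
    fun _ _ k => indicator_of_notMem k _⟩

theorem Va.gen {s : ι → L.ι → X → ℂ} (h : Va m L s) : Bpf m L := fun x => by
  obtain ⟨j, hj⟩ := not_forall.1 (show x ∉ Bs L s from h.bpf ▸ notMem_empty x)
  exact ⟨s j, (h.sec j).1, of_not_not hj⟩

variable [IsManifold 𝓘(ℂ, Cm m) ω X] [TopologicalSpace Z] [ChartedSpace (Cm n) Z]
  [IsManifold 𝓘(ℂ, Cm n) ω Z]

theorem Va.pull {s : ι → L.ι → X → ℂ} (h : Va m L s) {i : Z → X} {S : Set X} (hi : Emb n m i S) :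
    Va n (P277.HD.pull i L) fun j => res i L (s j) where
  lb := hi.hol.lb h.lb
  sec j := ⟨hi.hol.sec (h.sec j).1, fun a z k => (h.sec j).2 a (i z) k⟩
  bpf := eq_empty_of_forall_notMem fun z hz =>
    (show i z ∉ Bs L s from h.bpf ▸ notMem_empty _) hz
  pts _ _ a b ha hb k := hi.inj (h.pts _ _ a b ha hb k)
  tan x a e v ha he k := (injective_iff_map_eq_zero _).1 (hi.imm x e _ he (at_chart _)) v
    (h.tan (i x) a _ _ ha (at_chart _) fun j l => by
      have h1 := fun j => DFunLike.congr_fun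
        (dd_comp (sec_hol (h.sec j).1 ha) (hi.hol.at x) he (at_chart _)) v
      exact (congrArg (· * _) (h1 j)).symm.trans ((k j l).trans (congrArg (· * _) (h1 l))))

end

theorem va : VA := by
  intro n V L hL hP
  obtain ⟨k, r, s, hk, hs, h0, hE⟩ := Pb.kode n V L hL hP
  obtain ⟨S⟩ := Pb.psex r
  obtain ⟨φ, hφ, he⟩ := hE S
  have hl := lb_pow hL k
  have e1 : ∀ j a x, x ∈ L.U a → nm (L.pow k) (fun b y => s b y j) a x = s a x j :=
    fun j a x ha => Va.nm_eq (L := L.pow k) _ ha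
  refine ⟨k, r + 1, fun j => nm (L.pow k) fun b y => s b y j, hk, hl,
    fun j => Va.nm_mem hl (hs j), eq_empty_of_forall_notMem fun x hx => ?_,
    fun x y a b ha hb h => hφ.inj ?_, fun x a e v ha hex h => of_not_not fun hv => ?_⟩
  · obtain ⟨a, ha⟩ := hL.cover x
    obtain ⟨j, hj⟩ := Function.ne_iff.1 (h0 a x ha)
    exact hx j ((nz_iff hl (fun a b => (Va.nm_mem hl (hs j)).1.change a b x) ha).2
      ((e1 j a x ha).trans_ne hj))
  · rw [he a x ha, he b y hb]
    refine (S.pt_eq_iff' (h0 a x ha) (h0 b y hb)).2 fun j l => ?_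
    simpa only [e1 _ a x ha, e1 _ b y hb] using h j l
  · obtain ⟨l, hl'⟩ := Function.ne_iff.1 (h0 a x ha)
    have hh : ∀ j, Hol n (fun y => s a y j) x := fun j => sec_hol (hs j) ha
    obtain ⟨j, hj⟩ := (S.imm_iff hh hl' hex).1
      ((hφ.imm x).cng ((lb_near hL ha).mono fun y hy => he a y hy)) v hv
    have h1 : ∀ j, dd (nm (L.pow k) (fun b y => s b y j) a) e x = dd (fun y => s a y j) e x :=
      fun j => dd_congr ((lb_near hL ha).mono fun y hy => e1 j a y hy) hex
    have h2 := h j l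
    rw [h1, h1, e1 _ a x ha, e1 _ a x ha] at h2
    exact hj (by rw [dd_div (hh j) (hh l) hl' hex, mul_comm (s a x l), mul_comm (s a x j), h2,
      sub_self, mul_zero])

/-- a smooth member of a very ample system through a given point -/
theorem Va.cut (hB : BER) {n : ℕ} {V : Mf (n + 1)} {A : Bd V.X} {ι : Type} [Fintype ι]
    {s : ι → A.ι → V.X → ℂ} (h : Va (n + 1) A s) (x : V.X) :
    ∃ (σ : A.ι → V.X → ℂ) (Z : Mf n) (i : Z.X → V.X) (z : Z.X), Cut A σ i ∧ i z = x := by
  obtain ⟨a, ha⟩ := h.lb.cover x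
  set t : ι × ι → A.ι → V.X → ℂ := fun p => s p.1 a x • s p.2 - s p.2 a x • s p.1 with ht
  have h1 : ∀ p, IsSec (n + 1) A (t p) := fun p =>
    (sub_mem (Submodule.smul_mem _ _ (h.sec p.2)) (Submodule.smul_mem _ _ (h.sec p.1))).1
  have h2 : ∀ y ∈ Bs A t, x = y := fun y hy => by
    obtain ⟨b, hb⟩ := h.lb.cover y
    exact h.pts x y a b ha hb fun j k => sub_eq_zero.1 (of_not_not fun k' =>
      hy (j, k) ((nz_iff h.lb (fun a b => (h1 _).change a b y) hb).2 k'))
  obtain ⟨c, Z, i, hc⟩ := (hB V A _ t h.lb h1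
    ((countable_singleton x).mono fun y hy => (h2 y hy).symm) fun y hy => by
      obtain rfl := h2 y hy
      by_contra! k
      refine (Function.ne_iff.2 ⟨0, by simp⟩ : (Pi.single 0 1 : Cm (n + 1)) ≠ 0)
        (h.tan x a _ _ ha (at_chart x) fun j l => ?_)
      have h3 := fun j => (sec_hol (h.sec j).1 ha _ (at_chart x)).differentiableAt
      have h4 := k (l, j) a _ ha (at_chart x)
      rw [dd, show (fun z => t (l, j) a ((chartAt (Cm (n + 1)) x).symm z)) =
        fun z => s l a x * s j a ((chartAt (Cm (n + 1)) x).symm z) -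
          s j a x * s l a ((chartAt (Cm (n + 1)) x).symm z) from rfl,
        fderiv_fun_sub ((h3 j).const_mul _) ((h3 l).const_mul _), fderiv_const_mul (h3 j),
        fderiv_const_mul (h3 l), sub_eq_zero] at h4
      rw [mul_comm, mul_comm _ (s j a x)]
      exact DFunLike.congr_fun h4 _).exists
  obtain ⟨z, hz⟩ : x ∈ range i := by
    rw [hc.emb.rng]
    refine fun k => k a ha ?_
    simp only [Finset.sum_apply, Pi.smul_apply, ht, Pi.sub_apply, smul_eq_mul]
    exact Finset.sum_eq_zero fun p _ => by ring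
  exact ⟨_, Z, i, z, hc, hz⟩

theorem gg_of (hE : EXT) (hA : ADJ) (hB : BER) (hP : PT) : GG := by
  intro T hT n
  induction n with
  | zero =>
    intro V A M ι _ s _ hM _ x
    choose a ha using hM.cover
    obtain ⟨u, hu⟩ := ((hP V M hM).2.2 a ha).2 fun _ => 1
    exact ⟨u.1, u.2.1, (nz_iff hM (fun a b => u.2.1.change a b x) (ha x)).2
      ((congrFun hu x).trans_ne one_ne_zero)⟩
  | succ n ih =>
    intro V A M ι _ s h hM hK x
    obtain ⟨σ, Z, i, z, hc, rfl⟩ := h.cut hB x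
    have hl := hc.emb.hol.lb hM
    obtain ⟨u, hu, hz⟩ := ih Z _ _ ι _ (h.pull hc.emb) hl (by
      rw [(hA hc).2 T hT.c1, hT.c1.pull hc.emb.hol M hM, hT.c1.pull hc.emb.hol A h.lb, ← map_smul,
        ← map_sub, ← map_sub, show T.c1 V M - (T.c1 V (Bd.can (n + 1) V.X) + T.c1 V A) -
          (n : ℝ) • T.c1 V A = T.c1 V M - T.c1 V (Bd.can (n + 1) V.X) -
            ((n + 1 : ℕ) : ℝ) • T.c1 V A by rw [Nat.cast_succ, add_smul, one_smul]; abel]
      exact hT.po.mono (hT.po.pull hc.emb.hol hK) fun y v hv =>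
        (injective_iff_map_eq_zero _).1 (hc.emb.imm y _ _ (at_chart _) (at_chart _)) v hv) z
    have h1 : T.Nn V ((n : ℝ) • T.c1 V A) := by
      rcases n.eq_zero_or_pos with rfl | hn
      · rw [Nat.cast_zero, zero_smul]
        exact hT.po.zero V
      · exact hT.po.smul _ (Nat.cast_pos.2 hn) (hT.c1.bpf V A h.lb h.gen)
    obtain ⟨w, hw, k⟩ := hE T hT hc M hM (by
      rw [show T.c1 V M - T.c1 V (Bd.can (n + 1) V.X) - T.c1 V A = T.c1 V M -
        T.c1 V (Bd.can (n + 1) V.X) - ((n + 1 : ℕ) : ℝ) • T.c1 V A + (n : ℝ) • T.c1 V A by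
          rw [Nat.cast_succ, add_smul, one_smul]; abel]
      exact hT.po.mono (hT.po.add hK h1) fun _ => inf_le_left) _ (Va.nm_mem hl hu)
    exact ⟨w, hw.1, fun b hb => ((congrFun (congrFun k b) z).trans
      (Va.nm_eq (L := pull i M) u hb)).trans_ne (hz b hb)⟩

end Vale.Agent.P280Z.Ld
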