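import Vale.Agent.P280Z.Co.Defs
import Vale.Agent.P281Z.Sc.Pic
import Vale.Agent.P281Z.Pb.Defs

/-!
# P280Z, block LD: spaces of sections and ladders of hypersurfaces (definitions, statements)
-/

open scoped Manifold ContDiff Topology
open Set Filter MeasureTheory
open Vale.Agent.P272.K Vale.Agent.P285.H281.FD Vale.Agent.P281Z
open Vale.Agent.P277Z.Slc (lin dd)
open Vale.Agent.P277.HD (pull)

noncomputable section

namespace Vale.Agent.P280Z.Ld

/-- a family of local functions, extended by zero -/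
def nm {X : Type} (L : Bd X) : (L.ι → X → ℂ) →ₗ[ℂ] (L.ι → X → ℂ) where
  toFun s a := (L.U a).indicator (s a)
  map_add' _ _ := funext fun _ => indicator_add' _ _ _
  map_smul' c s := funext fun a => funext fun x => indicator_const_smul_apply _ c (s a) x

/-- the pull back of families of local functions -/
def res {X Z : Type} (i : Z → X) (L : Bd X) : (L.ι → X → ℂ) →ₗ[ℂ] ((pull i L).ι → Z → ℂ) where
  toFun s a z := s a (i z)
  map_add' _ _ := rfl
  map_smul' _ _ := rfl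

/-- the product with the section `σ` of `A`, for `M = N + A` -/
def tm {X : Type} (M : Bd X) {N A : Bd X} (φ : M.ι → N.ι) (ψ : M.ι → A.ι) (σ : A.ι → X → ℂ) :
    (N.ι → X → ℂ) →ₗ[ℂ] (M.ι → X → ℂ) :=
  (nm M).comp
    ({ toFun := fun t a x => t (φ a) x * σ (ψ a) x
       map_add' := fun _ _ => funext fun _ => funext fun _ => add_mul _ _ _
       map_smul' := fun _ _ => funext fun _ => funext fun _ => mul_assoc _ _ _ } :
      (N.ι → X → ℂ) →ₗ[ℂ] (M.ι → X → ℂ))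

/-- the common zeros of a family of sections -/
def Bs {X ι : Type} (L : Bd X) (s : ι → L.ι → X → ℂ) : Set X := {x | ∀ j, ¬ NZ L (s j) x}

section
variable (n : ℕ) {X : Type} [TopologicalSpace X] [ChartedSpace (Cm n) X]

/-- the space of sections; they are normalised to vanish outside of the domains of the frames -/
def Γ (L : Bd X) : Submodule ℂ (L.ι → X → ℂ) where
  carrier := {s | IsSec n L s ∧ ∀ a x, x ∉ L.U a → s a x = 0}
  add_mem' h h' := ⟨⟨fun a e x he ha => (h.1.holo a e x he ha).add (h'.1.holo a e x he ha),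
    fun a b x ha hb => by
      simp only [Pi.add_apply, h.1.change a b x ha hb, h'.1.change a b x ha hb, mul_add]⟩,
    fun a x k => by simp only [Pi.add_apply, h.2 a x k, h'.2 a x k, add_zero]⟩
  zero_mem' := ⟨⟨fun _ _ _ _ _ => contDiffAt_const, fun _ _ _ _ _ => (mul_zero _).symm⟩,
    fun _ _ _ => rfl⟩
  smul_mem' c _ h := ⟨⟨fun a e x he ha => contDiffAt_const.mul (h.1.holo a e x he ha),
    fun a b x ha hb => by
      simp only [Pi.smul_apply, smul_eq_mul, h.1.change a b x ha hb, mul_left_comm]⟩,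
    fun a x k => by simp only [Pi.smul_apply, h.2 a x k, smul_zero]⟩

/-- the dimension of the space of sections -/
def h0 (L : Bd X) : ℕ := Module.finrank ℂ (Γ n L)

/-- `M = N + A`, on a common refinement of the covers -/
structure Ml (M N A : Bd X) (φ : M.ι → N.ι) (ψ : M.ι → A.ι) : Prop where
  lM : IsLB n M
  lN : IsLB n N
  lA : IsLB n A
  sN : ∀ a, M.U a ⊆ N.U (φ a)
  sA : ∀ a, M.U a ⊆ A.U (ψ a)
  g : ∀ a b x, x ∈ M.U a → x ∈ M.U b → M.g a b x = N.g (φ a) (φ b) x * A.g (ψ a) (ψ b) x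

/-- `t` is a lift of the involution `σ` to `L` -/
structure Lz (σ : X → X) (L : Bd X) (t : L.ι → L.ι → X → ℂ) : Prop where
  hol : HolM n n σ
  inv : ∀ x, σ (σ x) = x
  lb : IsLB n L
  rel : LRel n L (pull σ L) t
  sq : ∀ a b c x, x ∈ L.U a → σ x ∈ L.U b → x ∈ L.U c → t a b x * t b c (σ x) = L.g a c x

/-- the invariant sections -/
def Γs (σ : X → X) (L : Bd X) (t : L.ι → L.ι → X → ℂ) : Submodule ℂ (L.ι → X → ℂ) :=
  Γ n L ⊓
    { carrier := {s | ∀ a b x, x ∈ L.U a → σ x ∈ L.U b → s a x = t a b x * s b (σ x)}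
      add_mem' := fun h h' a b x ha hb => by
        simp only [Pi.add_apply, h a b x ha hb, h' a b x ha hb, mul_add]
      zero_mem' := fun _ _ _ _ _ => (mul_zero _).symm
      smul_mem' := fun c _ h a b x ha hb => by
        simp only [Pi.smul_apply, smul_eq_mul, h a b x ha hb, mul_left_comm] }

/-- the dimension of the space of invariant sections -/
def hs (σ : X → X) (L : Bd X) (t : L.ι → L.ι → X → ℂ) : ℕ := Module.finrank ℂ (Γs n σ L t)

/-- the sections `s j` separate points and tangent vectors -/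
structure Va {ι : Type} (L : Bd X) (s : ι → L.ι → X → ℂ) : Prop where
  lb : IsLB n L
  sec : ∀ j, s j ∈ Γ n L
  bpf : Bs L s = ∅
  pts : ∀ x y a b, x ∈ L.U a → y ∈ L.U b → (∀ j k, s j a x * s k b y = s k a x * s j b y) → x = y
  tan : ∀ x a (e : Chart n X) v, x ∈ L.U a → At e x →
    (∀ j k, dd (s j a) e x v * s k a x = dd (s k a) e x v * s j a x) → v = 0

end

/-- the lift to `N + ∑ k j • H j` -/
def tl {X α : Type} [Fintype α] {N : Bd X} {H : α → Bd X} (t : N.ι → N.ι → X → ℂ)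
    (u : ∀ j, (H j).ι → (H j).ι → X → ℂ) (k : α → ℤ) (a b : (N.mul (lin H k)).ι) (x : X) : ℂ :=
  t a.1 b.1 x * ∏ j, u j (a.2 j) (b.2 j) x ^ k j

/-- `N - K` is positive -/
def Ap (T : CT) {n : ℕ} (V : Mf n) (N : Bd V.X) : Prop :=
  T.Kc V (T.c1 V N - T.c1 V (Bd.can n V.X))

/-- all differences of order `d` vanish -/
def Dz {α : Type} [DecidableEq α] : ℕ → ((α → ℕ) → ℚ) → Prop
  | 0, f => ∀ k, f k = 0
  | d + 1, f => ∀ j, Dz d fun k => f (k + Pi.single j 1) - f k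

/-- **ISO**: isomorphic line bundles have the same sections and the same class -/
def ISO : Prop := ∀ {n : ℕ} (V : Mf n) (L L' : Bd V.X) (t : L.ι → L'.ι → V.X → ℂ), IsLB n L →
  IsLB n L' → LRel n L L' t → (∀ T : CT, T.C1 → T.c1 V L = T.c1 V L') ∧
    ∃ Φ : Γ n L' ≃ₗ[ℂ] Γ n L, ∀ s a b x, x ∈ L.U a → x ∈ L'.U b → (Φ s).1 a x = t a b x * s.1 b x

/-- **FIN**: finite dimension -/
def FIN : Prop := ∀ {n : ℕ} (V : Mf n) (L : Bd V.X), V.Kah → IsLB n L → FiniteDimensional ℂ (Γ n L)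

/-- **EXT**: extension from a hypersurface -/
def EXT : Prop := ∀ T : CT, T.OK → ∀ {m n : ℕ} {V : Mf m} {Z : Mf n} {A : Bd V.X}
  {σ : A.ι → V.X → ℂ} {i : Z.X → V.X}, Cut A σ i → ∀ M : Bd V.X, IsLB m M →
  T.Kc V (T.c1 V M - T.c1 V (Bd.can m V.X) - T.c1 V A) → ∀ u ∈ Γ n (pull i M),
  ∃ s ∈ Γ m M, res i M s = u

/-- **DIV**: division by the equation of a hypersurface -/
def DIV : Prop := ∀ {m n : ℕ} {V : Mf m} {Z : Mf n} {A : Bd V.X} {σ : A.ι → V.X → ℂ}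
  {i : Z.X → V.X}, Cut A σ i → Dense {x | NZ A σ x} ∧ ∀ (M N : Bd V.X) φ ψ, Ml m M N A φ ψ →
  ∀ s ∈ Γ m M, res i M s = 0 → ∃ t ∈ Γ m N, tm M φ ψ σ t = s

/-- **MUL**: products of sections -/
def MUL : Prop := ∀ {n : ℕ} (V : Mf n) (M N A : Bd V.X) φ ψ, Ml n M N A φ ψ →
  ∀ σ, IsSec n A σ → (∀ t ∈ Γ n N, tm M φ ψ σ t ∈ Γ n M) ∧
    (Dense {x | NZ A σ x} → ∀ t ∈ Γ n N, tm M φ ψ σ t = 0 → t = 0) ∧
    ((∀ x, NZ A σ x) → ∀ s ∈ Γ n M, ∃ t ∈ Γ n N, tm M φ ψ σ t = s)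

/-- **ADJ**: adjunction -/
def ADJ : Prop := ∀ {m n : ℕ} {V : Mf m} {Z : Mf n} {A : Bd V.X} {σ : A.ι → V.X → ℂ}
  {i : Z.X → V.X} (h : Cut A σ i), LIso n (Bd.can n Z.X) (pull i ((Bd.can m V.X).mul A)) ∧
  ∀ T : CT, T.C1 →
    T.c1 Z (Bd.can n Z.X) = T.pull h.emb.hol (T.c1 V (Bd.can m V.X) + T.c1 V A)

/-- **BER**: the theorem of Bertini; at the base points one of the sections has a simple zero -/
def BER : Prop := ∀ {n : ℕ} (V : Mf (n + 1)) (A : Bd V.X) (ι : Type) [Fintype ι]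
  (s : ι → A.ι → V.X → ℂ), IsLB (n + 1) A → (∀ j, IsSec (n + 1) A (s j)) → (Bs A s).Countable →
  (∀ x ∈ Bs A s, ∃ (j : ι) (a : A.ι) (e : Chart (n + 1) V.X), x ∈ A.U a ∧ At e x ∧
    dd (s j a) e x ≠ 0) →
  ∀ᵐ c : ι → ℂ, ∃ (Z : Mf n) (i : Z.X → V.X), Cut A (∑ j, c j • s j) i

/-- **SPAN**: finitely many sections of a base point free system are enough -/
def SPAN : Prop := ∀ {n : ℕ} (V : Mf n) (A : Bd V.X) (S : Set (A.ι → V.X → ℂ)), IsLB n A →
  (∀ s ∈ S, IsSec n A s) → (∀ x, ∃ s ∈ S, NZ A s x) →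
  ∃ (r : ℕ) (s : Fin r → A.ι → V.X → ℂ), (∀ j, s j ∈ S) ∧ Bs A s = ∅

/-- **STEP**: one step of the ladder -/
def STEP : Prop := ∀ T : CT, T.OK → ∀ {m n : ℕ} {V : Mf m} {Z : Mf n} {A : Bd V.X}
  {s : A.ι → V.X → ℂ} {i : Z.X → V.X}, Cut A s i → ∀ (M N : Bd V.X) φ ψ, Ml m M N A φ ψ →
  Ap T V N → h0 m M = h0 m N + h0 n (pull i M)

/-- **STEPS**: one step of the equivariant ladder -/
def STEPS : Prop := ∀ T : CT, T.OK → ∀ {m n : ℕ} {V : Mf m} {Z : Mf n} {A : Bd V.X}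
  {s : A.ι → V.X → ℂ} {i : Z.X → V.X}, Cut A s i → ∀ (M N : Bd V.X) φ ψ, Ml m M N A φ ψ →
  Ap T V N → ∀ σ tM tN tA, Lz m σ M tM → Lz m σ N tN → Lz m σ A tA →
  (∀ a b x, x ∈ M.U a → σ x ∈ M.U b → tM a b x = tN (φ a) (φ b) x * tA (ψ a) (ψ b) x) →
  s ∈ Γs m σ A tA → ∃ τ : Z.X → Z.X, (∀ z, i (τ z) = σ (i z)) ∧ HolM n n τ ∧
    hs m σ M tM = hs m σ N tN + hs n τ (pull i M) fun a b z => tM a b (i z)

/-- **PALG**: functions with vanishing differences are polynomials -/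
def PALG : Prop := ∀ (α : Type) [Fintype α] [DecidableEq α] (d : ℕ) (f : (α → ℕ) → ℚ),
  Dz (d + 1) f → ∃ P : MvPolynomial α ℚ, P.totalDegree ≤ d ∧
    ∀ k, f k = MvPolynomial.eval (fun j => (k j : ℚ)) P

/-- **POLY**: the equivariant ladder -/
def POLY : Prop := ∀ T : CT, T.OK → ∀ {d : ℕ} (V : Mf d) (α : Type) [Fintype α] [DecidableEq α]
  (σ : V.X → V.X) (N : Bd V.X) (H : α → Bd V.X) t u, Lz d σ N t → (∀ j, Lz d σ (H j) (u j)) →
  (∀ j x, ∃ s ∈ Γs d σ (H j) (u j), NZ (H j) s x) → ∀ k₀ : α → ℤ, Ap T V (N.mul (lin H k₀)) →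
  Dz (d + 1) fun k => hs d σ (N.mul (lin H fun j => k₀ j + k j)) (tl t u fun j => k₀ j + k j)

/-- **VA**: a multiple of a positive line bundle is very ample -/
def VA : Prop := ∀ {n : ℕ} (V : Mf n) (L : Bd V.X), IsLB n L → Pos n L →
  ∃ (k r : ℕ) (s : Fin r → (L.pow k).ι → V.X → ℂ), 1 ≤ k ∧ Va n (L.pow k) s

/-- **GG**: `M` is generated by its sections if `M - K - n A` is positive and `A` is very ample -/
def GG : Prop := ∀ T : CT, T.OK → ∀ {n : ℕ} (V : Mf n) (A M : Bd V.X) (ι : Type) [Fintype ι]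
  (s : ι → A.ι → V.X → ℂ), Va n A s → IsLB n M →
  T.Kc V (T.c1 V M - T.c1 V (Bd.can n V.X) - (n : ℝ) • T.c1 V A) → Bpf n M

/-- **CONN**: a positive hypersurface is connected -/
def CONN : Prop := ∀ T : CT, T.OK → ∀ {m n : ℕ} {V : Mf m} {Z : Mf n} {A : Bd V.X}
  {σ : A.ι → V.X → ℂ} {i : Z.X → V.X}, Cut A σ i → 1 ≤ n → T.Kc V (T.c1 V A) →
  PreconnectedSpace V.X → PreconnectedSpace Z.X

/-- **PT**: dimension zero -/
def PT : Prop := ∀ (V : Mf 0) (L : Bd V.X), IsLB 0 L → Finite V.X ∧ h0 0 L = Nat.card V.X ∧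
  ∀ a : V.X → L.ι, (∀ x, x ∈ L.U (a x)) → Function.Bijective fun (s : Γ 0 L) x => s.1 (a x) x

/-- **the output of the block** -/
structure LD : Prop where
  iso : ISO
  fin : FIN
  ext : EXT
  div : DIV
  mul : MUL
  adj : ADJ
  ber : BER
  span : SPAN
  step : STEP
  steps : STEPS
  palg : PALG
  poly : POLY
  va : VA
  gg : GG
  conn : CONN
  pt : PT

end Vale.Agent.P280Z.Ld
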