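import Vale.Agent.P280Z.Ld.Defs
import Vale.Agent.P281Z.Mf.Sub

/-!
# P280Z, block LD: a positive hypersurface is connected
-/

open scoped Manifold ContDiff Topology
open Set Filter
open Vale.Agent.P272.K Vale.Agent.P285.H281.FD Vale.Agent.P281Z
open Vale.Agent.P277Z (Hol hol_const at_chart)
open Vale.Agent.P277.HD (pull)

noncomputable section

namespace Vale.Agent.P280Z.Ld

namespace ConnX

/-- the line bundle of the part `G` of the zero set `G ∪ G'` of `σ` -/
def Op {X : Type} (A : Bd X) (σ : A.ι → X → ℂ) (G G' : Set X) : Bd X where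
  ι := Option A.ι
  U
    | none => Gᶜ
    | some a => A.U a ∩ G'ᶜ
  g
    | none, none => fun _ => 1
    | none, some b => fun x => (σ b x)⁻¹
    | some a, none => σ a
    | some a, some b => A.g a b

/-- its canonical section -/
def sO {X : Type} (A : Bd X) (σ : A.ι → X → ℂ) (G G' : Set X) : (Op A σ G G').ι → X → ℂ
  | none => fun _ => 1
  | some a => σ a

variable {m n : ℕ} {V : Mf m} {A : Bd V.X} {σ : A.ι → V.X → ℂ} {G G' : Set V.X}

theorem ne0 (hz : {x | ¬ NZ A σ x} = G ∪ G') {x : V.X}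
    {a : A.ι} (ha : x ∈ A.U a) (h : x ∉ G) (h' : x ∉ G') : σ a x ≠ 0 := fun k => by
  have : x ∈ G ∪ G' := hz ▸ fun k' : NZ A σ x => k' a ha k
  exact this.elim h h'

theorem lb (hA : IsLB m A) (hσ : IsSec m A σ) (hz : {x | ¬ NZ A σ x} = G ∪ G') (hG : IsClosed G)
    (hG' : IsClosed G') (hd : Disjoint G G') : IsLB m (Op A σ G G') where
  isOpen
    | none => hG.isOpen_compl
    | some a => (hA.isOpen a).inter hG'.isOpen_compl
  cover x := by
    by_cases h : x ∈ G
    · obtain ⟨a, ha⟩ := hA.cover x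
      exact ⟨some a, ha, disjoint_left.1 hd h⟩
    · exact ⟨none, h⟩
  holo
    | none, none, _, _, _, _, _ => contDiffAt_const
    | none, some _, e, _, he, h, hb =>
      (((sec_hol hσ hb.1).inv (ne0 hz hb.1 h hb.2)) e he).contDiffAt
    | some a, none, e, x, he, ha, _ => hσ.holo a e x he ha.1
    | some a, some b, e, x, he, ha, hb => hA.holo a b e x he ha.1 hb.1
  ne_zero
    | none, none, _, _, _ => one_ne_zero
    | none, some _, _, h, hb => inv_ne_zero (ne0 hz hb.1 h hb.2)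
    | some _, none, _, ha, h => ne0 hz ha.1 h ha.2
    | some a, some b, x, ha, hb => hA.ne_zero a b x ha.1 hb.1
  cocycle
    | none, none, _, _, _, _, _ => one_mul _
    | _, none, none, _, _, _, _ => mul_one _
    | none, some _, none, _, h, hb, _ => inv_mul_cancel₀ (ne0 hz hb.1 h hb.2)
    | none, some b, some c, x, h, hb, hc => by
      show (σ b x)⁻¹ * A.g b c x = (σ c x)⁻¹
      rw [hσ.change b c x hb.1 hc.1, mul_inv, mul_comm,
        mul_inv_cancel_left₀ (hA.ne_zero b c x hb.1 hc.1)]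
    | some a, none, some c, x, ha, h, hc => by
      show σ a x * (σ c x)⁻¹ = A.g a c x
      rw [hσ.change a c x ha.1 hc.1, mul_inv_cancel_right₀ (ne0 hz hc.1 h hc.2)]
    | some a, some b, none, x, ha, hb, _ => (hσ.change a b x ha.1 hb.1).symm
    | some a, some b, some c, x, ha, hb, hc => hA.cocycle a b c x ha.1 hb.1 hc.1

theorem sec (hσ : IsSec m A σ) (hz : {x | ¬ NZ A σ x} = G ∪ G') :
    IsSec m (Op A σ G G') (sO A σ G G') where
  holo
    | none, _, _, _, _ => contDiffAt_const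
    | some a, e, x, he, ha => hσ.holo a e x he ha.1
  change
    | none, none, _, _, _ => (mul_one _).symm
    | none, some _, _, h, hb => (inv_mul_cancel₀ (ne0 hz hb.1 h hb.2)).symm
    | some _, none, _, _, _ => (mul_one _).symm
    | some a, some b, x, ha, hb => hσ.change a b x ha.1 hb.1

theorem nz (hz : {x | ¬ NZ A σ x} = G ∪ G') {x : V.X}
    (h : x ∉ G) : NZ (Op A σ G G') (sO A σ G G') x
  | none, _ => one_ne_zero
  | some _, ha => ne0 hz ha.1 h ha.2

theorem half (hI : ISO) {T : CT} (hT : T.OK) {Z Y Y' : Mf n} {i : Z.X → V.X} (h : Cut A σ i)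
    (hw : T.Kc V (T.c1 V A)) (hz : {x | ¬ NZ A σ x} = G ∪ G') (hd : Disjoint G G')
    {j : Y.X → V.X} {j' : Y'.X → V.X} (hj : Emb n m j G) (hj' : Emb n m j' G') (y : Y.X) {l : ℕ}
    (hl : n = l + 1) : ∃ z ∈ T.Ty V, T.Dg V 1 z ∧ T.pull hj'.hol z = 0 ∧
      0 < T.int V (z * T.c1 V A ^ (l + 1)) ∧
      T.int V (z * (z * T.c1 V A ^ l)) = T.int V (z * T.c1 V A ^ (l + 1)) ∧
      ∀ b, T.pull hj.hol b = 0 → T.int V (z * (b * T.c1 V A ^ l)) = 0 := by
  have hO := lb h.lb h.sec hz hj.closed hj'.closed hd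
  have hs := sec h.sec hz
  have hsub : G ⊆ {x | ¬ NZ A σ x} := hz ▸ subset_union_left
  have hc : Cut (Op A σ G G') (sO A σ G G') j := by
    refine ⟨h.dim, hO, hs, ⟨hj.hol, hj.inj, hj.imm, hj.rng.trans (Subset.antisymm
      (fun x hx k => hsub hx fun a ha => k (some a) ⟨ha, disjoint_left.1 hd hx⟩)
      fun x hx => not_not.1 fun k => hx (nz hz k))⟩, ?_⟩
    rintro z (_ | a) ha e he
    · exact (ha (hj.mem z)).elim
    · obtain ⟨z', hz'⟩ := h.emb.ex (hsub (hj.mem z))
      have := h.tr z' a (by rw [hz']; exact ha.1) e (by rw [hz']; exact he)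
      rwa [hz'] at this
  have e1 : T.pull hj.hol (T.c1 V (Op A σ G G')) = T.pull hj.hol (T.c1 V A) := by
    obtain ⟨t, ht⟩ : LIso n (pull j A) (pull j (Op A σ G G')) :=
      liso_of_map' (hj.hol.lb hO) some (fun a z ha => ⟨ha, disjoint_left.1 hd (hj.mem z)⟩)
        fun _ _ _ _ _ => rfl
    rw [← hT.c1.pull _ _ hO, ← hT.c1.pull _ _ h.lb]
    exact ((hI Y _ _ t (hj.hol.lb h.lb) (hj.hol.lb hO) ht).1 T hT.c1).symm
  have pl : ∀ a, T.int V (T.c1 V (Op A σ G G') * a) = T.int Y (T.pull hj.hol a) := hT.pl hc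
  refine ⟨_, hT.tp.c1 V _ hO, hT.c1.deg V _, ?_, ?_, ?_, fun b hb => ?_⟩
  · rw [← hT.c1.pull _ _ hO]
    exact hT.c1.triv Y' _ (fun a z => sO A σ G G' a (j' z)) (hj'.hol.lb hO) (hj'.hol.sec hs)
      fun z => nz hz (disjoint_right.1 hd (hj'.mem z))
  · have k := hT.po.pull hj.hol hw
    have := hT.po.pos 0 n y k k (zero_add n) (LinearMap.ker_eq_bot.2
      (hj.imm y _ _ (at_chart y) (at_chart _))) (by
        simpa using Submodule.finrank_le ((⊥ : Submodule ℂ (Cm m)).comap (Df n m j y)))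
    rwa [pow_zero, one_mul, ← map_pow, ← pl, hl] at this
  · rw [pl, pl, map_mul, e1, ← map_mul, ← pow_succ']
  · rw [pl, map_mul, hb, zero_mul, map_zero]

theorem dg_pow {T : CT} (hT : T.Rg) {w : T.H V} (h : T.Dg V 1 w) : ∀ k, T.Dg V k (w ^ k)
  | 0 => by rw [pow_zero]; exact hT.dg_one V
  | k + 1 => by rw [pow_succ]; exact hT.dg_mul V _ _ _ _ (dg_pow hT h k) h

theorem top0 {T : CT} (hT : T.OK) (hK : V.Kah) (hV : PreconnectedSpace V.X) {c : T.H V}
    (hc : T.Dg V m c) (h0 : T.int V c = 0) : c = 0 := by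
  refine hT.ho.pd V hK c fun b => ?_
  rw [← hT.rg.pr_sum V b, Finset.mul_sum, map_sum]
  refine Finset.sum_eq_zero fun k _ => ?_
  have hb : T.Dg V k (T.pr V k b) := (hT.rg.pr_pr V k k b).trans (if_pos rfl)
  cases k with
  | zero =>
    obtain ⟨r, hr⟩ := hT.rg.h0 V hV _ hb
    rw [hr, mul_comm, ← Algebra.smul_def, map_smul, h0, smul_zero]
  | succ k =>
    rw [← hT.rg.int_pr, ← hT.rg.dg_mul V _ _ _ _ hc hb, hT.rg.pr_pr, if_neg (by omega), map_zero]

end ConnX

open ConnX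

theorem conn_of (hI : ISO) : CONN := by
  intro T hT m n V Z A σ i h hn hw hV
  refine ⟨isPreconnected_of_forall_pair fun x _ y _ => ⟨connectedComponent x, subset_univ _,
    mem_connectedComponent, not_not.1 fun hy => ?_, isPreconnected_connectedComponent⟩⟩
  obtain ⟨l, hl⟩ : ∃ l, n = l + 1 := ⟨n - 1, by omega⟩
  have hS := isClopen_connectedComponent (x := x)
  obtain ⟨Y, j, hj⟩ := clopen_emb Z hS
  obtain ⟨Y', j', hj'⟩ := clopen_emb Z hS.compl
  obtain ⟨u, -⟩ := hj.ex mem_connectedComponent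
  obtain ⟨u', -⟩ := hj'.ex hy
  have hz : {x | ¬ NZ A σ x} = i '' connectedComponent x ∪ i '' (connectedComponent x)ᶜ := by
    rw [← image_union, union_compl_self, image_univ, h.emb.rng]
  have hd : Disjoint (i '' connectedComponent x) (i '' (connectedComponent x)ᶜ) :=
    (disjoint_image_iff h.emb.inj).2 disjoint_compl_right
  obtain ⟨z, t1, g1, p1, d1, q1, r1⟩ :=
    half hI hT h hw hz hd (h.emb.comp hj) (h.emb.comp hj') u hl
  obtain ⟨z', t2, g2, p2, d2, q2, -⟩ :=
    half hI hT h hw (hz.trans (union_comm _ _)) hd.symm (h.emb.comp hj') (h.emb.comp hj) u' hl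
  have r := r1 z' p2
  generalize T.c1 V A = w at *
  have hm : 1 + 1 + l = m := by rw [h.dim, hl]; omega
  have gw := hT.po.deg hw
  obtain ⟨a, ha⟩ : ∃ a, a = T.int V (z' * w ^ (l + 1)) • z - T.int V (z * w ^ (l + 1)) • z' :=
    ⟨_, rfl⟩
  have ga : T.Dg V 1 a := by
    rw [ha, CT.Dg, map_sub, map_smul, map_smul, g1, g2]
  have e0 : w ^ (l + 1) * a = 0 := by
    refine top0 hT ((hT.po.kah V).2 ⟨w, hw⟩) hV ?_ ?_
    · have := hT.rg.dg_mul V _ _ _ _ (dg_pow hT.rg gw (l + 1)) ga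
      rwa [show l + 1 + 1 = m by omega] at this
    · rw [ha, mul_comm, sub_mul, smul_mul_assoc, smul_mul_assoc, map_sub, map_smul, map_smul,
        smul_eq_mul, smul_eq_mul, mul_comm, sub_self]
  have e1 : 0 < T.int V (a * a * w ^ l) := by
    have : ∀ c c' : ℝ, (c • z - c' • z') * (c • z - c' • z') * w ^ l = (c * c) • (z * (z * w ^ l)) -
        (2 * c * c') • (z * (z' * w ^ l)) + (c' * c') • (z' * (z' * w ^ l)) := fun c c' => by
      simp only [Algebra.smul_def, map_mul, map_ofNat]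
      ring
    rw [ha, this, map_add, map_sub, map_smul, map_smul, map_smul, q1, q2, r, smul_zero, sub_zero,
      smul_eq_mul, smul_eq_mul]
    positivity
  have e2 := hT.ho.hr hw 1 l hm a (ha ▸ sub_mem (Subalgebra.smul_mem _ t1 _)
    (Subalgebra.smul_mem _ t2 _)) ga e0 (by rintro rfl; simp at e1)
  linarith

end Vale.Agent.P280Z.Ld
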