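import Vale.Agent.P280Z.Ld.Defs
import Vale.Agent.P281Z.Lg.AllV
import Vale.Agent.P281Z.La.AdjH

/-!
# P280Z, block LD: extension from a hypersurface, adjunction
-/

open scoped Manifold ContDiff Topology ComplexOrder
open Set Filter
open Vale.Agent.P272.K Vale.Agent.P285.H281.FD Vale.Agent.P281Z
open Vale.Agent.P277Z.Slc (Ind Snc isLB_can dd)
open Vale.Agent.P277.HD (pull)

noncomputable section

namespace Vale.Agent.P280Z.Ld

namespace Ext

theorem ind {m n : ℕ} {V : Mf m} {Z : Mf n} {A : Bd V.X} {σ : A.ι → V.X → ℂ} {i : Z.X → V.X}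
    (h : Cut A σ i) {a : A.ι} {x : V.X} (ha : x ∈ A.U a) (h0 : σ a x = 0) {α : Type}
    [Subsingleton α] {f : α → V.X → ℂ} (hf : ∀ k, f k = σ a) : Ind m f x := by
  obtain ⟨z, rfl⟩ : x ∈ range i := by
    rw [h.emb.rng]
    exact fun k => k a ha h0
  refine ⟨fun k => hf k ▸ sec_hol h.sec ha, fun e he =>
    (linearIndependent_subsingleton_index_iff _).2 fun k => ?_⟩
  rw [hf k]
  exact h.tr z a ha e he

theorem c1_cls (hI : ISO) {T : CT} (hT : T.C1) {n : ℕ} {V : Mf n} {L L' : Bd V.X} (h : IsLB n L)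
    (h' : IsLB n L') (e : cls n L = cls n L') : T.c1 V L = T.c1 V L' :=
  ((cls_eq h h').1 e).elim fun t ht => (hI V L L' t h h' ht).1 T hT

/-- a metric on `A` whose curvature is dominated -/
theorem dm {n : ℕ} {V : Mf n} {F A : Bd V.X} (hF : IsLB n F) (hA : IsLB n A) {ψ : F.ι → V.X → ℝ}
    (hψ : IsMet n F ψ) (k : ℕ) (h : Pos n ((F.pow k).mul (zp A (-1)))) :
    ∃ τ, IsMet n A τ ∧ Lg.Dm ψ τ := by
  obtain ⟨χ, h1, h2⟩ := h
  choose τ hτ using fun a : A.ι => glue hF (fun j x => k * ψ j x - χ (j, a) x)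
    (fun x => x ∈ A.U a) fun j j' x hj hj' ha => by
      rw [hψ.change j j' x hj hj', h1.change (j, a) (j', a) x ⟨hj, ha⟩ ⟨hj', ha⟩]
      show _ - (_ + Real.log (‖F.g j j' x ^ k * A.g a a x ^ (-1 : ℤ)‖ ^ 2)) = _
      rw [lb_self hA ha, one_zpow, mul_one, norm_pow, ← pow_mul, mul_comm k 2, pow_mul,
        Real.log_pow _ k]
      ring
  have ev : ∀ j a (e : Chart n V.X) x, At e x → x ∈ F.U j → x ∈ A.U a →
      (fun z => τ a (e.symm z)) =ᶠ[𝓝 (e x)] fun z => k * ψ j (e.symm z) - χ (j, a) (e.symm z) :=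
    fun j a e x he hj ha => at_ev he (((lb_near hF hj).and (lb_near hA ha)).mono fun y q =>
      hτ a j y q.1 q.2)
  refine ⟨τ, ⟨fun a e x he ha => ?_, fun a b x ha hb => ?_⟩, k, fun j a e x he hj ha => ?_⟩
  · obtain ⟨j, hj⟩ := hF.cover x
    exact ((contDiffAt_const.mul (hψ.smooth j e x he hj)).sub
      (h1.smooth (j, a) e x he ⟨hj, ha⟩)).congr_of_eventuallyEq (ev j a e x he hj ha)
  · obtain ⟨j, hj⟩ := hF.cover x
    rw [hτ a j x hj ha, hτ b j x hj hb, h1.change (j, a) (j, b) x ⟨hj, ha⟩ ⟨hj, hb⟩]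
    show _ - (_ + Real.log (‖F.g j j x ^ k * A.g a b x ^ (-1 : ℤ)‖ ^ 2)) = _
    rw [lb_self hF hj, one_pow, one_mul, zpow_neg_one, norm_inv, inv_pow, Real.log_inv]
    ring
  · have s1 : ContDiffAt ℝ 2 (fun z => ψ j (e.symm z)) (e x) :=
      (hψ.smooth j e x he hj).of_le (by norm_cast)
    rw [C2.cHess_congr (ev j a e x he hj ha), C2.cHess_sub (contDiffAt_const.mul s1)
      ((h1.smooth (j, a) e x he ⟨hj, ha⟩).of_le (by norm_cast)), C2.cHess_const_mul _ s1,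
      sub_sub_cancel]
    exact (h2 (j, a) e x he ⟨hj, ha⟩).posSemidef

theorem nm_mem {n : ℕ} {V : Mf n} {L : Bd V.X} (hL : IsLB n L) {s : L.ι → V.X → ℂ}
    (h : IsSec n L s) : nm L s ∈ Γ n L :=
  ⟨isSec_of (fun a x ha => (sec_hol h ha).congr ((lb_near hL ha).mono fun _ k =>
      (indicator_of_mem k _).symm)) fun a b x ha hb =>
      (indicator_of_mem ha _).trans ((h.change a b x ha hb).trans
        (congrArg _ (indicator_of_mem hb _).symm)), fun _ _ k => indicator_of_notMem k _⟩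

theorem of_secP {n p : ℕ} {V : Mf n} {W : Mf p} {L : Bd V.X} {i : V.X → W.X} {s : L.ι → V.X → ℂ}
    {c : Empty → ℝ} (k : SecP n p i univ L (fun l : Empty => l.elim) c s) : IsSec n L s :=
  isSec_of (fun a x ha => k.hol a x trivial ha fun l => l.elim)
    fun a b x ha hb => k.chg a b x trivial ha hb fun l => l.elim

end Ext

open Ext

theorem adj_of (hI : ISO) : ADJ := by
  intro m n V Z A σ i h
  obtain rfl := h.dim
  have k := Lg.stAdjH n V Z A σ i h.lb h.sec (fun a x ha h0 => ind h ha h0 fun _ => rfl) h.emb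
  refine ⟨k, fun T hT => ?_⟩
  obtain ⟨t, ht⟩ := k
  rw [(hI Z _ _ t isLB_can (h.emb.hol.lb (lb_mul isLB_can h.lb)) ht).1 T hT,
    hT.pull h.emb.hol _ (lb_mul isLB_can h.lb), hT.mul V _ _ isLB_can h.lb]

theorem ext_of (hI : ISO) : EXT := by
  intro T hT m n V Z A σ i h M hM hK u hu
  obtain rfl := h.dim
  have hA := h.lb
  have lK : IsLB (n + 1) (Bd.can (n + 1) V.X) := isLB_can
  have lA' := lb_zp hA (-1)
  have lF : IsLB (n + 1) (M.mul ((zp (Bd.can (n + 1) V.X) (-1)).mul (zp A (-1)))) :=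
    lb_mul hM (lb_mul (lb_zp lK _) lA')
  have cF := cls_mul hM (lb_mul (lb_zp lK (-1)) lA')
  rw [cls_mul (lb_zp lK _) lA', cls_zp lK, cls_zp hA] at cF
  generalize M.mul ((zp (Bd.can (n + 1) V.X) (-1)).mul (zp A (-1))) = F at lF cF
  have l2 := lb_mul lK (lb_mul lF hA)
  have c2 : cls (n + 1) M = cls (n + 1) ((Bd.can (n + 1) V.X).mul (F.mul A)) := by
    rw [cls_mul lK (lb_mul lF hA), cls_mul lF hA, cF]
    simp only [neg_smul, one_smul]
    abel
  have e1 : T.c1 V M - T.c1 V (Bd.can (n + 1) V.X) - T.c1 V A = T.c1 V F := by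
    rw [c1_cls hI hT.c1 hM l2 c2, hT.c1.mul V _ _ lK (lb_mul lF hA), hT.c1.mul V _ _ lF hA]
    ring
  rw [e1] at hK
  obtain ⟨ψ, hψ, hψ'⟩ := hT.kp V F lF hK
  obtain ⟨c, hc, hc'⟩ := hT.po.opn hK (-T.c1 V A) (neg_mem (hT.tp.c1 V A hA)) (by
    show _ = _
    rw [map_neg, hT.c1.deg V A])
  obtain ⟨k, hk⟩ := exists_nat_gt c
  have lG := lb_mul (lb_pow lF k) lA'
  have e2 : T.c1 V ((F.pow k).mul (zp A (-1))) =
      ((k : ℝ) - c) • T.c1 V F + (c • T.c1 V F + -T.c1 V A) := by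
    have e3 := c1_cls hI hT.c1 (lb_mul lG hA) (lb_pow lF k) (by
      rw [cls_mul lG hA, cls_mul (lb_pow lF k) lA', cls_zp hA, neg_smul, one_smul,
        neg_add_cancel_right])
    rw [hT.c1.mul V _ _ lG hA, hT.c1.pow V F k lF] at e3
    rw [← add_assoc, ← add_smul, sub_add_cancel, ← e3, add_neg_cancel_right]
  obtain ⟨τ, hτ, hD⟩ := dm lF hA hψ k (hT.kp V _ lG (by
    rw [e2]
    exact hT.po.mono (hT.po.add (hT.po.smul _ (sub_pos.2 hk) hK) hc') fun _ => inf_le_left))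
  obtain ⟨t, ht⟩ := (cls_eq hM l2).1 c2
  have ht' : LRel n (pull i M) (pull i ((Bd.can (n + 1) V.X).mul (F.mul A)))
      fun a b x => t a b (i x) :=
    ⟨fun a b x h1 h2 => h.emb.hol.hol (ht.hol a b _ h1 h2), fun a b x => ht.ne a b _,
      fun a a' b b' x => ht.chg a a' b b' _⟩
  have p1 := h.emb.hol.lb hM
  have p2 := h.emb.hol.lb l2
  obtain ⟨s, k1, k2⟩ := Lg.b3v n V Z Empty (fun l => l.elim) F A ψ τ σ i
    ((hT.po.kah V).2 ⟨_, hK⟩) (fun x => ⟨fun l => l.elim, fun l => l.elim, fun l => l.1.elim,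
      fun e he => (linearIndependent_subsingleton_index_iff _).2 fun l => l.1.elim⟩) lF hA hψ hτ
    (fun j e x he hj => (hψ' j e x he hj).posSemidef) hD h.sec
    (fun a x ha h0 ζ _ => by
      have : Subsingleton ({l : Empty // x ∈ (l.elim : Set V.X)} ⊕ Unit) := ⟨by
        rintro (l | l) (l' | l')
        exacts [l.1.elim, l.1.elim, l'.1.elim, rfl]⟩
      exact ind h ha h0 (Sum.rec (fun l => l.1.elim) fun _ => rfl)) h.emb _
    (secP_of_sec h.emb.hol.cont (ht'.symm.sec p2 p1 hu.1) fun _ => zero_le_one)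
  have k3 := of_secP k1
  refine ⟨_, nm_mem hM (ht.sec hM l2 k3), funext fun a => funext fun z => ?_⟩
  by_cases ha : i z ∈ M.U a
  · obtain ⟨b, hb⟩ := l2.cover (i z)
    refine (indicator_of_mem ha _).trans ?_
    rw [LRel.map_eq hM l2 ht (fun b b' => k3.change b b' _) ha hb, k2 b z (fun l => l.elim) hb,
      LRel.map_eq p2 p1 ht'.symm (fun b b' => hu.1.change b b' z) hb ha,
      mul_inv_cancel_left₀ (ht.ne _ _ _ ha hb)]
  · exact (indicator_of_notMem ha _).trans (hu.2 a z ha).symm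

end Vale.Agent.P280Z.Ld
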