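import Vale.Agent.P280Z.Ld.Defs
import Vale.Agent.P285Z.Fd
import Vale.Agent.P301.H450.Metric

/-!
# P280Z, block LD: finite dimension, finite generation, dimension zero
-/

open scoped Manifold ContDiff Topology
open Set Filter
open Vale.Agent.P272.K Vale.Agent.P285.H281.FD Vale.Agent.P281Z
open Vale.Agent.P277Z (at_chart)

noncomputable section

namespace Vale.Agent.P280Z.Ld

namespace Fn

variable {n : ℕ} {X : Type} [TopologicalSpace X] [ChartedSpace (Cm n) X]

/-- the line bundle given by `L` -/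
def tl (L : Bd X) (h : IsLB n L) : P301.H599.LineBundle n X L.ι where
  U := L.U
  isOpen := h.isOpen
  cover := h.cover
  g := L.g
  holo i j e x hx hi hj := (h.holo i j e x hx hi hj).analyticAt
  ne_zero := h.ne_zero
  cocycle := h.cocycle

theorem eq_zero {L : Bd X} {s : L.ι → X → ℂ} (hs : s ∈ Γ n L) {a : X → L.ι}
    (ha : ∀ x, x ∈ L.U (a x)) (h : ∀ x, s (a x) x = 0) : s = 0 := by
  funext b x
  by_cases hb : x ∈ L.U b
  · rw [hs.1.change b (a x) x hb (ha x), h x, mul_zero]
    rfl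
  · exact hs.2 b x hb

theorem nz_near {L : Bd X} (hL : IsLB n L) {s : L.ι → X → ℂ} (hs : IsSec n L s) {x : X}
    (h : NZ L s x) : ∀ᶠ y in 𝓝 x, NZ L s y := by
  obtain ⟨a, ha⟩ := hL.cover x
  have he := at_chart (n := n) x
  have h1 : ContinuousAt (fun y => s a ((chartAt (Cm n) x).symm (chartAt (Cm n) x y))) x :=
    ContinuousAt.comp (g := fun z => s a ((chartAt (Cm n) x).symm z))
      (hs.holo a _ x he ha).continuousAt ((chartAt (Cm n) x).continuousAt he.2)
  have h2 : ContinuousAt (s a) x := h1.congr (by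
    filter_upwards [(chartAt (Cm n) x).open_source.mem_nhds he.2] with y hy
    rw [(chartAt (Cm n) x).left_inv hy])
  filter_upwards [h2.eventually_ne (h a ha), (hL.isOpen a).mem_nhds ha] with y h3 h4 b hb
  rw [hs.change b a y hb h4]
  exact mul_ne_zero (hL.ne_zero b a y hb h4) h3

end Fn

theorem fin : FIN := by
  intro n V L ⟨w, hw⟩ hL
  obtain ⟨ρ, hρ⟩ := P301.H450.exists_metric (Fn.tl L hL)
  choose a ha using hL.cover
  have := P285Z.fd n V.X w hw _ (Fn.tl L hL) ρ hρ a ha
  refine FiniteDimensional.of_injective (((P285Z.evL a ρ).domRestrict (Γ n L)).codRestrict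
    ((P285Z.secSp (Fn.tl L hL)).map (P285Z.evL a ρ)) fun s => ⟨s.1, ⟨fun i e x he hi =>
      (s.2.1.holo i e x he hi).analyticAt, s.2.1.change⟩, rfl⟩) ?_
  rw [injective_iff_map_eq_zero]
  intro s hs
  refine Subtype.ext (Fn.eq_zero s.2 ha fun x => ?_)
  have h1 : s.1 (a x) x * (Real.exp (-ρ (a x) x / 2) : ℂ) = 0 :=
    congrFun (congrArg Subtype.val hs) x
  exact (mul_eq_zero.1 h1).resolve_right (Complex.ofReal_ne_zero.2 (Real.exp_pos _).ne')

theorem span : SPAN := by
  intro n V A S hA hS h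
  choose s h1 h2 using h
  obtain ⟨t, -, ht⟩ := isCompact_univ.elim_nhds_subcover (fun x => {y | NZ A (s x) y})
    fun x _ => Fn.nz_near hA (hS _ (h1 x)) (h2 x)
  refine ⟨t.card, fun j => s (t.equivFin.symm j), fun j => h1 _, eq_empty_iff_forall_notMem.2
    fun y hy => ?_⟩
  obtain ⟨x, hx, h3⟩ := mem_iUnion₂.1 (ht (mem_univ y))
  refine hy (t.equivFin ⟨x, hx⟩) ?_
  simp only [Equiv.symm_apply_apply]
  exact h3

theorem pt : PT := by
  intro V L hL
  have h1 : DiscreteTopology V.X := discreteTopology_iff_isOpen_singleton.2 fun x => by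
    have : (chartAt (Cm 0) x).source = {x} := eq_singleton_iff_unique_mem.2
      ⟨mem_chart_source _ x, fun y hy => (chartAt (Cm 0) x).injOn hy (mem_chart_source _ x)
        (Subsingleton.elim _ _)⟩
    exact this ▸ (chartAt (Cm 0) x).open_source
  have h2 : Finite V.X := finite_of_compact_of_discrete
  have h3 : ∀ a : V.X → L.ι, (∀ x, x ∈ L.U (a x)) →
      Function.Bijective fun (s : Γ 0 L) x => s.1 (a x) x := by
    intro a ha
    refine ⟨fun s t hst => Subtype.ext (sub_eq_zero.1 (Fn.eq_zero (sub_mem s.2 t.2) ha fun x =>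
      sub_eq_zero.2 (congrFun hst x))), fun f => ⟨⟨fun b => (L.U b).indicator fun x =>
        L.g b (a x) x * f x, ⟨fun b e x _ _ => ?_, fun b c x hb hc => ?_⟩,
        fun b x hb => indicator_of_notMem hb _⟩, funext fun x => ?_⟩⟩
    · exact contDiffAt_const.congr_of_eventuallyEq
        (Eventually.of_forall fun z => by rw [Subsingleton.elim z (e x)])
    · rw [indicator_of_mem hb, indicator_of_mem hc, ← mul_assoc, hL.cocycle b c _ x hb hc (ha x)]
    · have h4 := hL.cocycle _ _ _ x (ha x) (ha x) (ha x)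
      show (L.U (a x)).indicator (fun y => L.g (a x) (a y) y * f y) x = f x
      rw [indicator_of_mem (ha x), (mul_eq_left₀ (hL.ne_zero _ _ x (ha x) (ha x))).1 h4, one_mul]
  refine ⟨h2, ?_, h3⟩
  choose a ha using hL.cover
  have := Fintype.ofFinite V.X
  rw [h0, (LinearEquiv.ofBijective (⟨⟨fun (s : Γ 0 L) x => s.1 (a x) x, fun _ _ => rfl⟩,
    fun _ _ => rfl⟩ : Γ 0 L →ₗ[ℂ] (V.X → ℂ)) (h3 a ha)).finrank_eq,
    Module.finrank_fintype_fun_eq_card, Nat.card_eq_fintype_card]

end Vale.Agent.P280Z.Ld
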