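import Vale.Agent.P280Z.Ld.Defs
import Vale.Agent.P281Z.Nt.Hyp
import Vale.Agent.P281Z.Mf.An

/-!
# P280Z, block LD: isomorphisms, products and quotients of sections
-/

open scoped Manifold ContDiff Topology
open Set Filter
open Vale.Agent.P272.K Vale.Agent.P285.H281.FD Vale.Agent.P281Z
open Vale.Agent.P277Z (Hol)
open Vale.Agent.P277Z.Slc (lin LEq)

set_option linter.unusedSectionVars false

noncomputable section

namespace Vale.Agent.P280Z.Ld

namespace IsoH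

variable {n : ℕ} {X : Type} [TopologicalSpace X] [ChartedSpace (Cm n) X]
  [IsManifold 𝓘(ℂ, Cm n) ω X] {L L' M N A : Bd X} {x : X}

theorem nm_of {s : L.ι → X → ℂ} {a : L.ι} (h : x ∈ L.U a) : nm L s a x = s a x :=
  indicator_of_mem h _

theorem nm_in (hL : IsLB n L) {s : L.ι → X → ℂ} (hs : IsSec n L s) : nm L s ∈ Γ n L :=
  ⟨isSec_of (fun _ _ ha => (sec_hol hs ha).congr ((lb_near hL ha).mono fun _ hy => (nm_of hy).symm))
    fun a b x ha hb => by rw [nm_of ha, nm_of hb, hs.change a b x ha hb],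
    fun _ _ h => indicator_of_notMem h _⟩

theorem ext' {s s' : L.ι → X → ℂ} (hs : s ∈ Γ n L) (hs' : s' ∈ Γ n L)
    (h : ∀ a x, x ∈ L.U a → s a x = s' a x) : s = s' :=
  funext fun a => funext fun x => (em (x ∈ L.U a)).elim (h a x) fun k =>
    (hs.2 a x k).trans (hs'.2 a x k).symm

variable {t : L.ι → L'.ι → X → ℂ}

/-- the map on sections -/
def mp (hL : IsLB n L) (hL' : IsLB n L') (h : LRel n L L' t) : Γ n L' →ₗ[ℂ] Γ n L where
  toFun s := ⟨nm L (LRel.map hL' t s.1), nm_in hL (h.sec hL hL' s.2.1)⟩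
  map_add' _ _ := Subtype.ext ((congrArg (nm L) (funext fun _ => funext fun _ =>
    mul_add _ _ _)).trans (map_add _ _ _))
  map_smul' c s := Subtype.ext ((congrArg (nm L) (funext fun _ => funext fun _ =>
    mul_left_comm _ _ _)).trans ((nm L).map_smul c (LRel.map hL' t s.1)))

theorem mp_eq (hL : IsLB n L) (hL' : IsLB n L') (h : LRel n L L' t) (s : Γ n L') {a : L.ι}
    {b : L'.ι} (ha : x ∈ L.U a) (hb : x ∈ L'.U b) :
    (mp hL hL' h s).1 a x = t a b x * s.1 b x :=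
  (nm_of ha).trans (h.map_eq hL hL' (fun b b' => s.2.1.change b b' x) ha hb)

variable {φ : M.ι → N.ι} {ψ : M.ι → A.ι} {σ : A.ι → X → ℂ}

theorem tm_of (u : N.ι → X → ℂ) {a : M.ι} (h : x ∈ M.U a) :
    tm M φ ψ σ u a x = u (φ a) x * σ (ψ a) x := nm_of h

theorem tm_in (h : Ml n M N A φ ψ) (hσ : IsSec n A σ) {u : N.ι → X → ℂ} (hu : u ∈ Γ n N) :
    tm M φ ψ σ u ∈ Γ n M :=
  nm_in h.lM (isSec_of
    (fun a _ ha => (sec_hol hu.1 (h.sN a ha)).mul (sec_hol hσ (h.sA a ha))) fun a b x ha hb => by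
      show u (φ a) x * σ (ψ a) x = _ * (u (φ b) x * σ (ψ b) x)
      rw [h.g a b x ha hb, hu.1.change _ _ x (h.sN a ha) (h.sN b hb),
        hσ.change _ _ x (h.sA a ha) (h.sA b hb), mul_mul_mul_comm])

theorem cancel (hA : IsLB n A) (hd : Dense {x | NZ A σ x}) {c : A.ι} (hc : x ∈ A.U c)
    {a b : X → ℂ} (ha : Hol n a x) (hb : Hol n b x)
    (k : ∀ᶠ y in 𝓝 x, a y * σ c y = b y * σ c y) : a x = b x :=
  tendsto_nhds_unique_of_frequently_eq ha.cont hb.cont
    (((mem_closure_iff_frequently.1 (hd x)).and_eventually (k.and (lb_near hA hc))).mono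
      fun _ e => mul_right_cancel₀ (e.1 c e.2.2) e.2.1)

/-- local quotients give a global quotient -/
theorem dv (h : Ml n M N A φ ψ) (hσ : IsSec n A σ) (hd : Dense {x | NZ A σ x})
    {s : M.ι → X → ℂ} (hs : s ∈ Γ n M) (hc : ∀ a x, x ∈ M.U a →
      ∃ c, Hol n c x ∧ ∀ᶠ y in 𝓝 x, s a y = c y * σ (ψ a) y) :
    ∃ u ∈ Γ n N, tm M φ ψ σ u = s := by
  have hU := fun a x => lb_near h.lM (a := a) (x := x)
  choose! c c1 c2 using hc
  have h1 : ∀ a, ∀ x ∈ M.U a, Hol n (fun y => c a y y) x := fun a x hx =>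
    (c1 a x hx).congr (by
      filter_upwards [hU a x hx, (c1 a x hx).near, (c2 a x hx).eventually_nhds] with y k1 k2 k3
      exact cancel h.lA hd (h.sA a k1) k2 (c1 a y k1)
        ((k3.and (c2 a y k1)).mono fun _ e => e.1.symm.trans e.2))
  have h2 := fun a x hx => (c2 a x hx).self_of_nhds
  have h3 : ∀ a a' x, x ∈ M.U a → x ∈ M.U a' → c a x x = N.g (φ a) (φ a') x * c a' x x :=
    fun a a' x ha ha' => cancel h.lA hd (h.sA a ha) (h1 a x ha)
      ((lb_hol h.lN (h.sN a ha) (h.sN a' ha')).mul (h1 a' x ha')) (by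
        filter_upwards [hU a x ha, hU a' x ha'] with y k k'
        rw [← h2 a y k, hs.1.change a a' y k k', h2 a' y k', h.g a a' y k k',
          hσ.change _ _ y (h.sA a k) (h.sA a' k'), mul_mul_mul_comm])
  choose u hu using fun b : N.ι => glue h.lM (fun a x => N.g b (φ a) x * c a x x)
    (fun x => x ∈ N.U b) fun a a' x ha ha' hb => by
      rw [h3 a a' x ha ha', ← mul_assoc, h.lN.cocycle _ _ _ x hb (h.sN a ha) (h.sN a' ha')]
  have h4 : nm N u ∈ Γ n N := nm_in h.lN (isSec_of (fun b x hb => by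
    obtain ⟨a, ha⟩ := h.lM.cover x
    refine ((lb_hol h.lN hb (h.sN a ha)).mul (h1 a x ha)).congr ?_
    filter_upwards [hU a x ha, lb_near h.lN hb] with y k k' using (hu b a y k k').symm)
    fun b b' x hb hb' => by
      obtain ⟨a, ha⟩ := h.lM.cover x
      rw [hu b a x ha hb, hu b' a x ha hb', ← mul_assoc, h.lN.cocycle _ _ _ x hb hb' (h.sN a ha)])
  refine ⟨_, h4, ext' (tm_in h hσ h4) hs fun a x ha => ?_⟩
  rw [tm_of _ ha, nm_of (h.sN a ha), hu _ a x ha (h.sN a ha), lb_self h.lN (h.sN a ha), one_mul,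
    h2 a x ha]

theorem leq {m n : ℕ} {V : Mf m} {Z : Mf n} {A : Bd V.X} {σ : A.ι → V.X → ℂ} {i : Z.X → V.X}
    (h : Cut A σ i) {a : A.ι} {x : V.X} (ha : x ∈ A.U a) : LEq m {x | ¬ NZ A σ x} x (σ a) := by
  have k : ∀ y ∈ A.U a, σ a y = 0 ↔ y ∈ {x | ¬ NZ A σ x} := fun y hy =>
    not_not.symm.trans (nz_iff h.lb (fun a b => h.sec.change a b y) hy).not.symm
  refine ⟨(lb_near h.lb ha).mono k, fun e he => ⟨sec_hol h.sec ha e he, fun h0 => ?_⟩⟩
  obtain ⟨z, rfl⟩ := h.emb.ex ((k x ha).1 h0)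
  exact h.tr z a ha e he

end IsoH

open IsoH

/-- **ISO** -/
theorem iso : ISO := by
  intro n V L L' t hL hL' h
  refine ⟨fun T hT => ?_, LinearEquiv.ofLinearMap (mp hL hL' h) (mp hL' hL h.symm) ?_ ?_,
    fun s a b x ha hb => mp_eq hL hL' h s ha hb⟩
  · have h1 := lb_lin (B := fun _ : Unit => L') (fun _ => hL') fun _ => -1
    have h2 := hT.triv V (L.mul (lin (fun _ : Unit => L') fun _ => -1))
      (fun a x => t a.1 (a.2 ()) x) (lb_mul hL h1)
      (isSec_of (fun a x ha => h.hol _ _ x ha.1 (ha.2 ())) fun a b x ha hb => by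
        show _ = L.g a.1 b.1 x * (∏ u : Unit, L'.g (a.2 u) (b.2 u) x ^ (-1 : ℤ)) * _
        rw [Fintype.prod_unique, mul_right_comm, ← h.chg _ _ _ _ x ha.1 hb.1 (ha.2 ()) (hb.2 ()),
          zpow_neg_one, mul_inv_cancel_right₀ (hL'.ne_zero _ _ x (ha.2 ()) (hb.2 ()))])
      fun x a ha => h.ne _ _ x ha.1 (ha.2 ())
    rw [hT.mul V _ _ hL h1, hT.lin V _ _ fun _ => hL', Fintype.sum_unique] at h2
    simpa [add_neg_eq_zero] using h2
  · refine LinearMap.ext fun s => Subtype.ext (ext' (Subtype.prop _) s.2 fun a x ha => ?_)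
    obtain ⟨b, hb⟩ := hL'.cover x
    exact (mp_eq hL hL' h _ ha hb).trans (by
      rw [mp_eq hL' hL h.symm s hb ha, mul_inv_cancel_left₀ (h.ne a b x ha hb)]; rfl)
  · refine LinearMap.ext fun s => Subtype.ext (ext' (Subtype.prop _) s.2 fun b x hb => ?_)
    obtain ⟨a, ha⟩ := hL.cover x
    exact (mp_eq hL' hL h.symm _ hb ha).trans (by
      rw [mp_eq hL hL' h s ha hb, inv_mul_cancel_left₀ (h.ne a b x ha hb)]; rfl)

/-- **MUL** -/
theorem mul_ : MUL := by
  intro n V M N A φ ψ h σ hσ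
  refine ⟨fun t ht => tm_in h hσ ht, fun hd t ht h0 => ext' ht (zero_mem _) fun b x hb => ?_,
    fun h0 s hs => dv h hσ (fun x => subset_closure (h0 x)) hs fun a x ha => ?_⟩
  · obtain ⟨a, ha⟩ := h.lM.cover x
    have k : t (φ a) x = 0 := cancel h.lA hd (h.sA a ha) (sec_hol ht.1 (h.sN a ha))
      (P277Z.hol_const 0 x) ((lb_near h.lM ha).mono fun y hy => by
        rw [← tm_of t hy, h0, zero_mul]
        rfl)
    rw [ht.1.change b _ x hb (h.sN a ha), k, mul_zero]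
    rfl
  · exact ⟨fun y => s a y * (σ (ψ a) y)⁻¹,
      (sec_hol hs.1 ha).mul ((sec_hol hσ (h.sA a ha)).inv (h0 x _ (h.sA a ha))),
      (lb_near h.lM ha).mono fun y hy => (inv_mul_cancel_right₀ (h0 y _ (h.sA a hy)) _).symm⟩

/-- **DIV** -/
theorem div : DIV := by
  intro m n V Z A σ i h
  have hd : Dense {x | NZ A σ x} :=
    (thin_of_leq fun x => (h.lb.cover x).elim fun a ha => ⟨_, leq h ha⟩).2.mono
      fun _ k => not_not.1 k
  refine ⟨hd, fun M N φ ψ hM s hs h0 => dv hM h.sec hd hs fun a x ha =>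
    Nt.Hp.div (leq h (hM.sA a ha)) (sec_hol hs.1 ha) (.of_forall fun y hy => ?_)⟩
  obtain ⟨z, rfl⟩ := h.emb.ex hy
  exact congrFun (congrFun h0 a) z

end Vale.Agent.P280Z.Ld
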