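import Vale.Agent.P280Z.Ld.Defs
import Mathlib.Algebra.Group.ForwardDiff
import Mathlib.RingTheory.Polynomial.Pochhammer
import Mathlib.Algebra.MvPolynomial.CommRing

/-!
# P280Z, block LD: functions with vanishing differences are polynomials
-/

open Finset MvPolynomial

namespace Vale.Agent.P280Z.Ld

namespace Palg

variable {α : Type} [DecidableEq α]

theorem dz_iter (j : α) (n t : ℕ) (f : (α → ℕ) → ℚ) (h : Dz (n + t) f) :
    Dz n ((fwdDiff (Pi.single j 1))^[t] f) := by
  induction t generalizing f with
  | zero => exact h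
  | succ t ih => exact ih _ (h j)

theorem dz_zero (j : α) (n t : ℕ) (f : (α → ℕ) → ℚ) (h : Dz n f) :
    (fwdDiff (Pi.single j 1))^[n + t] f = 0 := by
  rw [add_comm, Function.iterate_add_apply, show (fwdDiff (Pi.single j 1))^[n] f = 0 from
    _root_.funext (dz_iter j 0 n f (by rwa [zero_add]))]
  exact Function.iterate_fixed (_root_.funext fun _ => sub_self _) t

theorem main (s : Finset α) (d : ℕ) (f : (α → ℕ) → ℚ) (h : Dz (d + 1) f) :
    ∃ P : MvPolynomial α ℚ, P.totalDegree ≤ d ∧
      ∀ k : α → ℕ, f (fun i => if i ∈ s then k i else 0) = eval (fun j => (k j : ℚ)) P := by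
  induction s using Finset.induction_on generalizing d f with
  | empty => exact ⟨C (f fun _ => 0), by simp, fun k => by simp⟩
  | insert j s hj ih =>
    choose! P h1 h2 using fun t (ht : t ≤ d) => ih (d - t) _
      (dz_iter j _ t f (by rwa [add_right_comm, Nat.sub_add_cancel ht]))
    refine ⟨∑ t ∈ range (d + 1), C ((t.factorial : ℚ)⁻¹) * (∏ i ∈ range t, (X j - C (i : ℚ))) * P t,
      totalDegree_finsetSum_le fun t ht => ?_, fun k => ?_⟩
    · have k1 := Nat.lt_succ_iff.1 (mem_range.1 ht)
      have k2 : (∏ i ∈ range t, (X j - C (i : ℚ))).totalDegree ≤ t :=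
        (totalDegree_finsetProd _ _).trans ((sum_le_card_nsmul _ _ 1 fun i _ =>
          (totalDegree_sub_C_le _ _).trans (totalDegree_X j).le).trans (by simp))
      have k3 := h1 t k1
      refine (totalDegree_mul _ _).trans ((add_le_add_left (totalDegree_mul _ _) _).trans ?_)
      rw [totalDegree_C]
      omega
    · have e : (fun i => if i ∈ insert j s then k i else 0) =
          (fun i => if i ∈ s then k i else 0) + k j • (Pi.single j 1 : α → ℕ) := by
        ext i
        by_cases hi : i = j <;> simp [hi, hj]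
      rw [e, shift_eq_sum_fwdDiff_iter _ f, map_sum]
      simp only [map_mul, eval_C, map_prod, map_sub, eval_X, ← descPochhammer_eval_eq_prod_range,
        ← div_eq_inv_mul, ← Nat.cast_choose_eq_descPochhammer_div, nsmul_eq_mul]
      refine sum_congr_of_eq_on_inter (fun t _ ht => ?_) (fun t _ ht => ?_) fun t _ ht => ?_
      · obtain ⟨t, rfl⟩ := Nat.exists_eq_add_of_le (not_lt.1 (mem_range.not.1 ht))
        rw [dz_zero j _ t f h, Pi.zero_apply, mul_zero]
      · rw [Nat.choose_eq_zero_of_lt (not_lt.1 (mem_range.not.1 ht)), Nat.cast_zero, zero_mul]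
      · rw [h2 t (Nat.lt_succ_iff.1 (mem_range.1 ht))]

end Palg

theorem palg : PALG := fun _ _ _ d f h => by
  simpa only [mem_univ, if_true] using Palg.main univ d f h

end Vale.Agent.P280Z.Ld
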