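import Vale.Agent.P280Z.Ld.Defs

/-!
# P280Z, block LD: the equivariant ladder (row POLY)
-/

open scoped Manifold ContDiff Topology
open Set Filter MeasureTheory
open Vale.Agent.P272.K Vale.Agent.P285.H281.FD Vale.Agent.P281Z
open Vale.Agent.P277Z (Hol at_chart)
open Vale.Agent.P277Z.Slc (lin)
open Vale.Agent.P277.HD (pull)

noncomputable section

namespace Vale.Agent.P280Z.Ld

namespace Py

variable {n m : ℕ} {V : Mf n} {Z : Mf m} {α : Type} [Fintype α] {σ : V.X → V.X} {N L : Bd V.X}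
  {H : α → Bd V.X} {t : N.ι → N.ι → V.X → ℂ} {u : ∀ j, (H j).ι → (H j).ι → V.X → ℂ}

theorem prod_single [DecidableEq α] {z : α → ℂ} (h : ∀ l, z l ≠ 0) {κ κ' : α → ℤ} {j : α}
    (hk : κ' = κ + Pi.single j 1) : ∏ l, z l ^ κ' l = (∏ l, z l ^ κ l) * z j := by
  simp only [hk, Pi.add_apply, zpow_add₀ (h _), Finset.prod_mul_distrib]
  congr 1
  rw [Finset.prod_eq_single j (fun l _ hl => by rw [Pi.single_eq_of_ne hl, zpow_zero])
    (fun k => absurd (Finset.mem_univ j) k), Pi.single_eq_same, zpow_one]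

theorem lz_tl (hN : Lz n σ N t) (hH : ∀ j, Lz n σ (H j) (u j)) (κ : α → ℤ) :
    Lz n σ (N.mul (lin H κ)) (tl t u κ) where
  hol := hN.hol
  inv := hN.inv
  lb := lb_mul hN.lb (lb_lin (fun j => (hH j).lb) κ)
  rel := ⟨fun a b x ha hb => (hN.rel.hol _ _ x ha.1 hb.1).mul (Hol.prod Finset.univ fun j _ =>
      ((hH j).rel.hol _ _ x (ha.2 j) (hb.2 j)).zpow ((hH j).rel.ne _ _ x (ha.2 j) (hb.2 j)) _),
    fun a b x ha hb => mul_ne_zero (hN.rel.ne _ _ x ha.1 hb.1) (Finset.prod_ne_zero_iff.2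
      fun j _ => zpow_ne_zero _ ((hH j).rel.ne _ _ x (ha.2 j) (hb.2 j))),
    fun a a' b b' x ha ha' hb hb' => by
      show _ * (∏ j, _) * (_ * ∏ j, _) = _ * (∏ j, _) * (_ * ∏ j, _)
      rw [mul_mul_mul_comm, mul_mul_mul_comm (N.g _ _ _), ← Finset.prod_mul_distrib,
        ← Finset.prod_mul_distrib]
      refine congrArg₂ _ (hN.rel.chg _ _ _ _ x ha.1 ha'.1 hb.1 hb'.1)
        (Finset.prod_congr rfl fun j _ => ?_)
      rw [← mul_zpow, ← mul_zpow]
      exact congrArg (· ^ κ j) ((hH j).rel.chg _ _ _ _ x (ha.2 j) (ha'.2 j) (hb.2 j) (hb'.2 j))⟩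
  sq a b c x ha hb hc := by
    show _ * (∏ j, _) * (_ * ∏ j, _) = _ * ∏ j, _
    rw [mul_mul_mul_comm, ← Finset.prod_mul_distrib]
    refine congrArg₂ _ (hN.sq _ _ _ x ha.1 hb.1 hc.1) (Finset.prod_congr rfl fun j _ => ?_)
    rw [← mul_zpow, (hH j).sq _ _ _ x (ha.2 j) (hb.2 j) (hc.2 j)]

/-- the index sets do not depend on the exponents -/
def cv (κ κ' : α → ℤ) (a : (N.mul (lin H κ')).ι) : (N.mul (lin H κ)).ι := a

theorem cv_onto (κ κ' : α → ℤ) (a' : (N.mul (lin H κ)).ι) :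
    ∃ a, cv κ κ' a = a' ∧ (N.mul (lin H κ)).U a' ⊆ (N.mul (lin H κ')).U a :=
  ⟨a', rfl, subset_rfl⟩

theorem ml_tl [DecidableEq α] (hN : IsLB n N) (hH : ∀ j, IsLB n (H j)) {κ κ' : α → ℤ} {j : α}
    (hk : κ' = κ + Pi.single j 1) :
    Ml n (N.mul (lin H κ')) (N.mul (lin H κ)) (H j) (cv κ κ') fun a => a.2 j where
  lM := lb_mul hN (lb_lin hH _)
  lN := lb_mul hN (lb_lin hH _)
  lA := hH j
  sN _ := subset_rfl
  sA _ _ hx := hx.2 j
  g a b x ha hb := by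
    show _ * (∏ l, _) = _ * (∏ l, _) * _
    rw [prod_single (fun l => (hH l).ne_zero _ _ x (ha.2 l) (hb.2 l)) hk, mul_assoc]
    rfl

theorem tl_add [DecidableEq α] (hH : ∀ j, Lz n σ (H j) (u j)) {κ κ' : α → ℤ} {j : α}
    (hk : κ' = κ + Pi.single j 1) (a b : (N.mul (lin H κ')).ι) (x : V.X)
    (ha : x ∈ (N.mul (lin H κ')).U a) (hb : σ x ∈ (N.mul (lin H κ')).U b) :
    tl t u κ' a b x = tl t u κ (cv κ κ' a) (cv κ κ' b) x * u j (a.2 j) (b.2 j) x := by
  show _ * (∏ l, _) = _ * (∏ l, _) * _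
  rw [prod_single (fun l => (hH l).rel.ne _ _ x (ha.2 l) (hb.2 l)) hk, mul_assoc]
  rfl

theorem lz_pull {w : L.ι → L.ι → V.X → ℂ} (h : Lz n σ L w) {i : Z.X → V.X} (hi : HolM m n i)
    (hj : Function.Injective i) {τ : Z.X → Z.X} (hτ : HolM m m τ) (k : ∀ z, i (τ z) = σ (i z)) :
    Lz m τ (pull i L) fun a b z => w a b (i z) where
  hol := hτ
  inv z := hj (by rw [k, k, h.inv])
  lb := hi.lb h.lb
  rel := ⟨fun a b z ha hb => hi.hol (h.rel.hol a b _ ha (show σ (i z) ∈ L.U b from k z ▸ hb)),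
    fun a b z ha hb => h.rel.ne a b _ ha (show σ (i z) ∈ L.U b from k z ▸ hb),
    fun a a' b b' z ha ha' hb hb' => by
      show _ * L.g b b' (i (τ z)) = _
      rw [k]
      exact h.rel.chg a a' b b' _ ha ha' (show σ (i z) ∈ L.U b from k z ▸ hb)
        (show σ (i z) ∈ L.U b' from k z ▸ hb')⟩
  sq a b c z ha hb hc := by
    show _ * w b c (i (τ z)) = _
    rw [k]
    exact h.sq a b c _ ha (show σ (i z) ∈ L.U b from k z ▸ hb) hc

theorem res_mem {w : L.ι → L.ι → V.X → ℂ} {i : Z.X → V.X} (hi : HolM m n i) {τ : Z.X → Z.X}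
    (k : ∀ z, i (τ z) = σ (i z)) {s : L.ι → V.X → ℂ} (h : s ∈ Γs n σ L w) :
    res i L s ∈ Γs m τ (pull i L) fun a b z => w a b (i z) :=
  ⟨⟨hi.sec h.1.1, fun a z hz => h.1.2 a (i z) hz⟩, fun a b z ha hb => by
    show s a (i z) = w a b (i z) * s b (i (τ z))
    rw [k]
    exact h.2 a b (i z) ha (show σ (i z) ∈ L.U b from k z ▸ hb)⟩

/-- the product with an invariant section without zeros -/
theorem hs_eq (hm : MUL) {M A : Bd V.X} {φ : M.ι → N.ι} {ψ : M.ι → A.ι} (h : Ml n M N A φ ψ)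
    (hφ : ∀ a', ∃ a, φ a = a' ∧ N.U a' ⊆ M.U a) {tM : M.ι → M.ι → V.X → ℂ}
    {tA : A.ι → A.ι → V.X → ℂ}
    (ht : ∀ a b x, x ∈ M.U a → σ x ∈ M.U b → tM a b x = t (φ a) (φ b) x * tA (ψ a) (ψ b) x)
    {s : A.ι → V.X → ℂ} (hs' : s ∈ Γs n σ A tA) (h0 : ∀ x, NZ A s x) :
    hs n σ M tM = hs n σ N t := by
  obtain ⟨h1, h2, h3⟩ := hm V M N A φ ψ h s hs'.1.1
  have e1 : ∀ (w : N.ι → V.X → ℂ) a x, x ∈ M.U a → tm M φ ψ s w a x = w (φ a) x * s (ψ a) x :=
    fun w a x hx => indicator_of_mem hx _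
  have e2 : ∀ w ∈ Γs n σ N t, tm M φ ψ s w ∈ Γs n σ M tM := fun w hw =>
    ⟨h1 w hw.1, fun a b x ha hb => by
      rw [e1 w a x ha, e1 w b _ hb, ht a b x ha hb, hw.2 _ _ x (h.sN a ha) (h.sN b hb),
        hs'.2 _ _ x (h.sA a ha) (h.sA b hb)]
      ring⟩
  refine (LinearEquiv.ofBijective ((tm M φ ψ s).restrict e2) ⟨?_, fun w => ?_⟩).finrank_eq.symm
  · refine (injective_iff_map_eq_zero _).2 fun w hw => Subtype.ext ?_
    exact h2 (dense_univ.mono fun x _ => h0 x) w.1 w.2.1 (congrArg Subtype.val hw)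
  · obtain ⟨w', k1, k2⟩ := h3 h0 w.1 w.2.1
    refine ⟨⟨w', k1, fun a' b' x ha hb => ?_⟩, Subtype.ext k2⟩
    obtain ⟨a, rfl, ka⟩ := hφ a'
    obtain ⟨b, rfl, kb⟩ := hφ b'
    have e3 := w.2.2 a b x (ka ha) (kb hb)
    rw [← k2, e1 w' a x (ka ha), e1 w' b _ (kb hb), ht a b x (ka ha) (kb hb)] at e3
    refine mul_right_cancel₀ (h0 x _ (h.sA a (ka ha))) (e3.trans ?_)
    rw [hs'.2 _ _ x (h.sA a (ka ha)) (h.sA b (kb hb))]
    ring

/-! ### Positivity -/

variable {T : CT}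

theorem c1_tl (hT : T.OK) (hN : IsLB n N) (hH : ∀ j, IsLB n (H j)) (κ : α → ℤ) :
    T.c1 V (N.mul (lin H κ)) = T.c1 V N + ∑ j, (κ j : ℝ) • T.c1 V (H j) := by
  rw [hT.c1.mul V _ _ hN (lb_lin hH κ), hT.c1.lin V H κ hH]

theorem nn_sum (hT : T.OK) {w : α → T.H V} (h : ∀ j, T.Nn V (w j)) (k : α → ℕ) :
    T.Nn V (∑ j, (k j : ℝ) • w j) :=
  Finset.sum_induction _ (T.Nn V) (fun _ _ ha hb => hT.po.mono (hT.po.add ha hb) fun _ => le_top)
    (hT.po.zero V) fun j _ => by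
      rcases Nat.eq_zero_or_pos (k j) with h0 | h0
      · rw [h0, Nat.cast_zero, zero_smul]
        exact hT.po.zero V
      · exact hT.po.smul _ (Nat.cast_pos.2 h0) (h j)

theorem ap_add (hT : T.OK) (hN : IsLB n N) (hH : ∀ j, IsLB n (H j)) (hb : ∀ j, Bpf n (H j))
    {κ : α → ℤ} (h : Ap T V (N.mul (lin H κ))) (k : α → ℕ) :
    Ap T V (N.mul (lin H fun j => κ j + k j)) := by
  have h1 := hT.po.mono (hT.po.add h (nn_sum hT (fun j => hT.c1.bpf V _ (hH j) (hb j)) k))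
    (N' := fun _ => ⊥) fun _ => inf_le_left
  have h2 : T.c1 V (N.mul (lin H fun j => κ j + k j)) - T.c1 V (Bd.can n V.X) =
      T.c1 V (N.mul (lin H κ)) - T.c1 V (Bd.can n V.X) + ∑ j, (k j : ℝ) • T.c1 V (H j) := by
    rw [c1_tl hT hN hH, c1_tl hT hN hH]
    simp only [Int.cast_add, Int.cast_natCast, add_smul, Finset.sum_add_distrib]
    ring
  unfold Ap
  rw [h2]
  exact h1

theorem ap_res [DecidableEq α] (hT : T.OK) (ha : ADJ) (hN : IsLB n N) (hH : ∀ j, IsLB n (H j))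
    {κ : α → ℤ} (h : Ap T V (N.mul (lin H κ))) {j : α} {s : (H j).ι → V.X → ℂ} {i : Z.X → V.X}
    (hc : Cut (H j) s i) :
    Ap T Z ((pull i N).mul (lin (fun l => pull i (H l)) (κ + Pi.single j 1))) := by
  have h1 := hT.po.mono (hT.po.pull hc.emb.hol h) (N' := fun _ => ⊥) fun z v hv =>
    (injective_iff_map_eq_zero (Df m n i z)).1
      (hc.emb.imm z _ _ (at_chart z) (at_chart (i z))) v hv
  have h2 : T.c1 V (N.mul (lin H (κ + Pi.single j 1))) =
      T.c1 V (N.mul (lin H κ)) + T.c1 V (H j) := by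
    rw [c1_tl hT hN hH, c1_tl hT hN hH]
    simp only [Pi.add_apply, Int.cast_add, add_smul, Finset.sum_add_distrib]
    rw [add_assoc]
    congr 2
    rw [Finset.sum_eq_single j (fun l _ hl => by
      rw [Pi.single_eq_of_ne hl, Int.cast_zero, zero_smul]) (fun k => absurd (Finset.mem_univ j) k),
      Pi.single_eq_same, Int.cast_one, one_smul]
  have h3 := hT.c1.pull hc.emb.hol _ (lb_mul hN (lb_lin hH (κ + Pi.single j 1)))
  unfold Ap
  rw [show T.c1 Z ((pull i N).mul (lin (fun l => pull i (H l)) (κ + Pi.single j 1))) = _ from h3,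
    (ha hc).2 T hT.c1, ← map_sub, h2, add_sub_add_right_eq_sub]
  exact h1

omit [Fintype α] in
theorem idx [DecidableEq α] (κ : α → ℤ) (k : α → ℕ) (j : α) :
    (fun l => κ l + ((k + Pi.single j 1 : α → ℕ) l : ℤ)) =
      (fun l => κ l + (k l : ℤ)) + Pi.single j 1 := by
  funext l
  by_cases h : l = j
  · subst h
    simp [add_assoc]
  · simp [Pi.single_eq_of_ne h]

end Py

open Py in
/-- row POLY -/
theorem poly_of (_ : ISO) (hm : MUL) (ha : ADJ) (hb : BER) (hp : SPAN) (hs' : STEPS) : POLY := by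
  intro T hT d
  induction d with
  | zero =>
    intro V α _ _ σ N H t u hN hH hg κ _ j k
    have : DiscreteTopology V.X := ChartedSpace.discreteTopology (Cm 0) V.X
    have : Finite V.X := finite_of_compact_of_discrete
    choose a hx using (hH j).lb.cover
    obtain ⟨s, h1, h2⟩ := Module.Dual.exists_forall_mem_ne_zero_of_forall_exists
      (Γs 0 σ (H j) (u j)) (fun x : V.X => ⟨⟨fun s => s (a x) x, fun _ _ => rfl⟩, fun _ _ => rfl⟩)
      fun x => (hg j x).elim fun s h => ⟨s, h.1, h.2 _ (hx x)⟩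
    have h3 := hs_eq hm (ml_tl hN.lb (fun l => (hH l).lb) (idx κ k j)) (cv_onto _ _)
      (tl_add (t := t) hH (idx κ k j)) h1
      fun x => (nz_iff (hH j).lb (fun a b => h1.1.1.change a b x) (hx x)).2 (h2 x)
    exact sub_eq_zero.2 (congrArg Nat.cast h3)
  | succ d ih =>
    intro V α _ _ σ N H t u hN hH hg κ hA j
    have hl := fun l => (hH l).lb
    obtain ⟨r, s, h1, h2⟩ := hp V (H j) (Γs (d + 1) σ (H j) (u j)) (hl j) (fun s h => h.1.1) (hg j)
    obtain ⟨c, Z, i, hc⟩ := (hb V (H j) (Fin r) s (hl j) (fun l => (h1 l).1.1)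
      (by rw [h2]; exact countable_empty) (by rw [h2]; exact fun _ h => h.elim)).exists
    have h3 : ∑ l, c l • s l ∈ Γs (d + 1) σ (H j) (u j) :=
      Submodule.sum_mem _ fun l _ => Submodule.smul_mem _ _ (h1 l)
    have h4 := fun k : α → ℕ => hs' T hT hc _ _ _ _ (ml_tl hN.lb hl (idx κ k j))
      (ap_add hT hN.lb hl (fun l x => (hg l x).imp fun s h => ⟨h.1.1.1, h.2⟩) hA k) σ _ _ _
      (lz_tl hN hH _) (lz_tl hN hH _) (hH j) (tl_add hH (idx κ k j)) h3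
    obtain ⟨τ, k1, k2, -⟩ := h4 0
    have h5 := ih Z α τ (pull i N) (fun l => pull i (H l)) (fun a b z => t a b (i z))
      (fun l a b z => u l a b (i z)) (lz_pull hN hc.emb.hol hc.emb.inj k2 k1)
      (fun l => lz_pull (hH l) hc.emb.hol hc.emb.inj k2 k1)
      (fun l z => (hg l (i z)).elim fun s h => ⟨_, res_mem hc.emb.hol k1 h.1, h.2⟩)
      (κ + Pi.single j 1) (ap_res hT ha hN.lb hl hA hc)
    refine (congrArg (Dz (d + 1)) (funext fun k => ?_)).mp h5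
    obtain ⟨τ', k3, -, k4⟩ := h4 k
    obtain rfl : τ' = τ := funext fun z => hc.emb.inj ((k3 z).trans (k1 z).symm)
    have e : (fun l => (κ + Pi.single j 1 : α → ℤ) l + (k l : ℤ)) =
        fun l => κ l + ((k + Pi.single j 1 : α → ℕ) l : ℤ) :=
      Eq.trans (funext fun l => add_right_comm (κ l) _ _) (idx κ k j).symm
    refine (congrArg (fun κ' => ((hs d τ' ((pull i N).mul (lin (fun l => pull i (H l)) κ'))
      (tl (N := pull i N) (H := fun l => pull i (H l)) (fun a b z => t a b (i z))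
        (fun l a b z => u l a b (i z)) κ') : ℕ) : ℚ)) e).trans ?_
    exact eq_sub_of_add_eq' ((Nat.cast_add _ _).symm.trans (congrArg Nat.cast k4).symm)

end Vale.Agent.P280Z.Ld
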