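import Vale.Agent.P280Z.Ld.Defs
import Vale.Agent.P281Z.Mf.Loc

/-!
# P280Z, block LD: one step of the ladder
-/

open scoped Manifold ContDiff Topology
open Set Filter
open Vale.Agent.P272.K Vale.Agent.P285.H281.FD Vale.Agent.P281Z
open Vale.Agent.P277.HD (pull)

noncomputable section

namespace Vale.Agent.P280Z.Ld

namespace Stp

/-- dimensions in a short exact sequence of subspaces -/
theorem dim {A B C : Type} [AddCommGroup A] [Module ℂ A] [AddCommGroup B] [Module ℂ B]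
    [AddCommGroup C] [Module ℂ C] (P : Submodule ℂ A) (Q : Submodule ℂ B) (R : Submodule ℂ C)
    (f : A →ₗ[ℂ] B) (g : B →ₗ[ℂ] C) [FiniteDimensional ℂ Q] (hf : ∀ a ∈ P, f a ∈ Q)
    (hg : ∀ b ∈ Q, g b ∈ R) (inj : ∀ a ∈ P, f a = 0 → a = 0) (e0 : ∀ a, g (f a) = 0)
    (ex : ∀ b ∈ Q, g b = 0 → ∃ a ∈ P, f a = b) (sur : ∀ c ∈ R, ∃ b ∈ Q, g b = c) :
    Module.finrank ℂ Q = Module.finrank ℂ P + Module.finrank ℂ R := by
  have h1 : LinearMap.range (g.restrict hg) = ⊤ := LinearMap.range_eq_top.2 fun c =>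
    let ⟨b, hb, k⟩ := sur c.1 c.2
    ⟨⟨b, hb⟩, Subtype.ext k⟩
  have h2 : LinearMap.ker (g.restrict hg) = LinearMap.range (f.restrict hf) := by
    ext b
    constructor
    · intro k
      obtain ⟨a, ha, k'⟩ := ex b.1 b.2 (congrArg Subtype.val k)
      exact ⟨⟨a, ha⟩, Subtype.ext k'⟩
    · rintro ⟨a, rfl⟩
      exact Subtype.ext (e0 a.1)
  have h3 : Function.Injective (f.restrict hf) := (injective_iff_map_eq_zero _).2 fun a k =>
    Subtype.ext (inj a.1 a.2 (congrArg Subtype.val k))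
  rw [← LinearMap.finrank_range_add_finrank_ker (g.restrict hg), h1, h2, finrank_top,
    LinearMap.finrank_range_of_inj h3, add_comm]

theorem tm_in {X : Type} {M N A : Bd X} {φ : M.ι → N.ι} {ψ : M.ι → A.ι} (s : A.ι → X → ℂ)
    (t : N.ι → X → ℂ) {a : M.ι} {x : X} (h : x ∈ M.U a) :
    tm M φ ψ s t a x = t (φ a) x * s (ψ a) x :=
  indicator_of_mem h _

theorem tm_out {X : Type} {M N A : Bd X} {φ : M.ι → N.ι} {ψ : M.ι → A.ι} (s : A.ι → X → ℂ)
    (t : N.ι → X → ℂ) {a : M.ι} {x : X} (h : x ∉ M.U a) : tm M φ ψ s t a x = 0 :=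
  indicator_of_notMem h _

variable {m n : ℕ} {V : Mf m} {Z : Mf n} {A M N : Bd V.X} {s : A.ι → V.X → ℂ} {i : Z.X → V.X}
  {φ : M.ι → N.ι} {ψ : M.ι → A.ι}

theorem res_in (hi : HolM n m i) {u : M.ι → V.X → ℂ} (h : u ∈ Γ m M) :
    res i M u ∈ Γ n (pull i M) :=
  ⟨hi.sec h.1, fun a z k => h.2 a (i z) k⟩

theorem res_tm (h : Cut A s i) (hM : Ml m M N A φ ψ) (t : N.ι → V.X → ℂ) :
    res i M (tm M φ ψ s t) = 0 := by
  funext a z
  show tm M φ ψ s t a (i z) = 0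
  by_cases k : i z ∈ M.U a
  · have h1 : ¬ NZ A s (i z) := h.emb.mem z
    simp only [NZ, not_forall, not_not] at h1
    obtain ⟨b, hb, h1⟩ := h1
    rw [tm_in s t k, h.sec.change _ b _ (hM.sA a k) hb, h1, mul_zero, mul_zero]
  · exact tm_out s t k

theorem kc (iso : ISO) {T : CT} (hT : T.OK) (hM : Ml m M N A φ ψ) (hN : Ap T V N) :
    T.Kc V (T.c1 V M - T.c1 V (Bd.can m V.X) - T.c1 V A) := by
  obtain ⟨t, ht⟩ := liso_of_map' (L := M) (lb_mul hM.lN hM.lA) (fun a => (φ a, ψ a))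
    (fun a _ k => ⟨hM.sN a k, hM.sA a k⟩) fun a b x ha hb => (hM.g a b x ha hb).symm
  rw [(iso V M _ t hM.lM (lb_mul hM.lN hM.lA) ht).1 T hT.c1, hT.c1.mul V N A hM.lN hM.lA,
    sub_right_comm, add_sub_cancel_right]
  exact hN

/-- the action of the involution on the sections -/
theorem op (iso : ISO) {σ : V.X → V.X} {t : M.ι → M.ι → V.X → ℂ} (h : Lz m σ M t)
    {u : M.ι → V.X → ℂ} (hu : u ∈ Γ m M) : ∃ u' ∈ Γ m M, ∀ a b x, x ∈ M.U a → σ x ∈ M.U b →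
      u' a x = t a b x * u b (σ x) := by
  obtain ⟨Φ, hΦ⟩ := (iso V M (pull σ M) t h.lb (h.hol.lb h.lb) h.rel).2
  exact ⟨_, (Φ ⟨_, res_in h.hol hu⟩).2, hΦ _⟩

end Stp

open Stp

theorem step_of (iso : ISO) (fin : FIN) (ext : EXT) (div : DIV) (mul : MUL) : STEP := by
  intro T hT m n V Z A s i h M N φ ψ hM hN
  have := fin V M ((hT.po.kah V).2 ⟨_, hN⟩) hM.lM
  have h1 := mul V M N A φ ψ hM s h.sec
  exact dim _ _ _ (tm M φ ψ s) (res i M) h1.1 (fun _ => res_in h.emb.hol) (h1.2.1 (div h).1)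
    (res_tm h hM) ((div h).2 M N φ ψ hM) (ext T hT h M hM.lM (kc iso hT hM hN))

theorem steps_of (iso : ISO) (fin : FIN) (ext : EXT) (div : DIV) (mul : MUL) : STEPS := by
  intro T hT m n V Z A s i h M N φ ψ hM hN σ tM tN tA zM zN zA ht hs'
  obtain ⟨τ, hτ, hi⟩ := h.emb.lift (zA.hol.comp h.emb.hol) fun z k => h.emb.mem z fun a ha => by
    obtain ⟨b, hb⟩ := h.lb.cover (σ (i z))
    rw [hs'.2 a b _ ha hb]
    exact mul_ne_zero (zA.rel.ne a b _ ha hb) (k b hb)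
  refine ⟨τ, hi, hτ, ?_⟩
  have := fin V M ((hT.po.kah V).2 ⟨_, hN⟩) hM.lM
  have : FiniteDimensional ℂ (Γs m σ M tM) := Submodule.finiteDimensional_of_le inf_le_left
  have h1 := mul V M N A φ ψ hM s h.sec
  have key : ∀ (t t' : N.ι → V.X → ℂ) a b x, x ∈ M.U a → σ x ∈ M.U b →
      t' (φ a) x = tN (φ a) (φ b) x * t (φ b) (σ x) →
      tm M φ ψ s t' a x = tM a b x * tm M φ ψ s t b (σ x) := fun t t' a b x ha hb k => by
    rw [tm_in s t' ha, tm_in s t hb, k, ht a b x ha hb, hs'.2 _ _ x (hM.sA a ha) (hM.sA b hb),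
      mul_mul_mul_comm]
  refine dim _ _ _ (tm M φ ψ s) (res i M)
    (fun t k => ⟨h1.1 t k.1, fun a b x ha hb =>
      key t t a b x ha hb (k.2 _ _ x (hM.sN a ha) (hM.sN b hb))⟩)
    (fun u k => ⟨res_in h.emb.hol k.1, fun a b z ha hb => ?_⟩)
    (fun t k => h1.2.1 (div h).1 t k.1) (res_tm h hM) (fun u k k0 => ?_) fun u k => ?_
  · show u a (i z) = tM a b (i z) * u b (i (τ z))
    rw [hi z]
    exact k.2 a b _ ha (hi z ▸ hb)
  · obtain ⟨t, h2, rfl⟩ := (div h).2 M N φ ψ hM u k.1 k0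
    obtain ⟨t', h3, h4⟩ := op iso zN h2
    have h5 : t = t' := sub_eq_zero.1 (h1.2.1 (div h).1 _ (sub_mem h2 h3) (by
      rw [map_sub, sub_eq_zero]
      funext a x
      by_cases ha : x ∈ M.U a
      · obtain ⟨b, hb⟩ := hM.lM.cover (σ x)
        rw [key t t' a b x ha hb (h4 _ _ x (hM.sN a ha) (hM.sN b hb))]
        exact k.2 a b x ha hb
      · rw [tm_out s t ha, tm_out s t' ha]))
    exact ⟨t, ⟨h2, fun a b x ha hb => (congrFun (congrFun h5 a) x).trans (h4 a b x ha hb)⟩, rfl⟩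
  · obtain ⟨v, h2, rfl⟩ := ext T hT h M hM.lM (kc iso hT hM hN) u k.1
    obtain ⟨v', h3, h4⟩ := op iso zM h2
    refine ⟨(2 : ℂ)⁻¹ • (v + v'), ⟨Submodule.smul_mem _ _ (add_mem h2 h3), fun a b x ha hb => ?_⟩,
      ?_⟩
    · show 2⁻¹ * (v a x + v' a x) = tM a b x * (2⁻¹ * (v b (σ x) + v' b (σ x)))
      have h5 : v a x = tM a b x * v' b (σ x) := by
        rw [h4 b a (σ x) hb (by rwa [zM.inv]), zM.inv, ← mul_assoc, zM.sq a b a x ha hb ha,
          lb_self hM.lM ha, one_mul]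
      rw [h4 a b x ha hb, h5]
      ring
    · funext a z
      show 2⁻¹ * (v a (i z) + v' a (i z)) = v a (i z)
      have h5 : v' a (i z) = v a (i z) := by
        by_cases ha : i z ∈ M.U a
        · obtain ⟨b, hb⟩ := hM.lM.cover (σ (i z))
          rw [h4 a b _ ha hb, ← hi z]
          exact (k.2 a b z ha (show i (τ z) ∈ M.U b from (hi z).symm ▸ hb)).symm
        · rw [h2.2 a _ ha, h3.2 a _ ha]
      rw [h5]
      ring

end Vale.Agent.P280Z.Ld
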