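import Vale.Agent.P280Z.Ld.Api
import Vale.Agent.P280Z.Ld.Iso
import Vale.Agent.P280Z.Ld.Fin
import Vale.Agent.P280Z.Ld.Ext
import Vale.Agent.P280Z.Ld.Ber
import Vale.Agent.P280Z.Ld.Step
import Vale.Agent.P280Z.Ld.Palg
import Vale.Agent.P280Z.Ld.Poly
import Vale.Agent.P280Z.Ld.Va
import Vale.Agent.P280Z.Ld.Conn

/-!
# P280Z, block LD: the result
-/

namespace Vale.Agent.P280Z.Ld

/-- **LD** -/
theorem ld : LD :=
  have S := steps_of iso fin (ext_of iso) div mul_
  ⟨iso, fin, ext_of iso, div, mul_, adj_of iso, ber, span, step_of iso fin (ext_of iso) div mul_, S,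
    palg, poly_of iso mul_ (adj_of iso) ber span S, va, gg_of (ext_of iso) (adj_of iso) ber pt,
    conn_of iso, pt⟩

end Vale.Agent.P280Z.Ld
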