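import Vale.Agent.P280Z.Ld.Defs
import Vale.Agent.P281Z.Mf.Loc

/-!
# P280Z, block LD: toolbox
-/

open scoped Manifold ContDiff Topology
open Set Filter
open Vale.Agent.P272.K Vale.Agent.P285.H281.FD Vale.Agent.P281Z
open Vale.Agent.P277Z (Hol hol_const)
open Vale.Agent.P277Z.Slc (lin dd IsDiv)
open Vale.Agent.P277.HD (pull)

set_option linter.unusedSectionVars false

noncomputable section

namespace Vale.Agent.P280Z.Ld

variable {n : ℕ} {X : Type} [TopologicalSpace X] [ChartedSpace (Cm n) X]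
  [IsManifold 𝓘(ℂ, Cm n) ω X] {L M N A : Bd X} {s t : L.ι → X → ℂ} {x : X}
  {m : ℕ} {Z : Type} [TopologicalSpace Z] [ChartedSpace (Cm m) Z] [IsManifold 𝓘(ℂ, Cm m) ω Z]
  {i : Z → X}

theorem mem_Γ : s ∈ Γ n L ↔ IsSec n L s ∧ ∀ a x, x ∉ L.U a → s a x = 0 := Iff.rfl

theorem mem_Γs {σ : X → X} {u : L.ι → L.ι → X → ℂ} : s ∈ Γs n σ L u ↔
    s ∈ Γ n L ∧ ∀ a b x, x ∈ L.U a → σ x ∈ L.U b → s a x = u a b x * s b (σ x) := Iff.rfl

theorem nm_of {a : L.ι} (h : x ∈ L.U a) : nm L s a x = s a x := indicator_of_mem h _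

theorem nm_not {a : L.ι} (h : x ∉ L.U a) : nm L s a x = 0 := indicator_of_notMem h _

theorem nm_nz : NZ L (nm L s) x ↔ NZ L s x := forall₂_congr fun _ h => by rw [nm_of h]

theorem isSec_congr (hL : IsLB n L) (h : IsSec n L s) (k : ∀ a, ∀ x ∈ L.U a, t a x = s a x) :
    IsSec n L t :=
  isSec_of (fun a _ ha => (sec_hol h ha).congr ((lb_near hL ha).mono fun y e => (k a y e).symm))
    fun a b x ha hb => by rw [k a x ha, k b x hb, h.change a b x ha hb]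

theorem nm_mem (hL : IsLB n L) (h : IsSec n L s) : nm L s ∈ Γ n L :=
  ⟨isSec_congr hL h fun _ _ => nm_of, fun _ _ => nm_not⟩

theorem nm_eq (h : s ∈ Γ n L) : nm L s = s := funext₂ fun a x => by
  by_cases k : x ∈ L.U a
  exacts [nm_of k, (nm_not k).trans (h.2 a x k).symm]

theorem Γ_ext (h : s ∈ Γ n L) (h' : t ∈ Γ n L) (k : ∀ a, ∀ x ∈ L.U a, s a x = t a x) : s = t :=
  funext₂ fun a x => by
    by_cases e : x ∈ L.U a
    exacts [k a x e, (h.2 a x e).trans (h'.2 a x e).symm]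

/-- it is enough to compare in one frame at each point -/
theorem Γ_ext' (h : s ∈ Γ n L) (h' : t ∈ Γ n L) (k : ∀ x, ∃ a, x ∈ L.U a ∧ s a x = t a x) : s = t :=
  Γ_ext h h' fun a x ha => (k x).elim fun b e => by
    rw [h.1.change a b x ha e.1, h'.1.change a b x ha e.1, e.2]

theorem res_apply (a : L.ι) (z : Z) : res i L s a z = s a (i z) := rfl

theorem res_mem (hi : HolM m n i) (h : s ∈ Γ n L) : res i L s ∈ Γ m (pull i L) :=
  ⟨hi.sec h.1, fun a z => h.2 a (i z)⟩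

theorem tm_of {φ : M.ι → N.ι} {ψ : M.ι → A.ι} {σ : A.ι → X → ℂ} {t : N.ι → X → ℂ} {a : M.ι}
    (h : x ∈ M.U a) : tm M φ ψ σ t a x = t (φ a) x * σ (ψ a) x := nm_of (L := M) h

theorem sum_apply' {ι : Type} [Fintype ι] (c : ι → ℂ) (s : ι → L.ι → X → ℂ) (a : L.ι) (x : X) :
    (∑ j, c j • s j) a x = ∑ j, c j * s j a x := by
  simp only [Finset.sum_apply, Pi.smul_apply, smul_eq_mul]

theorem not_nz (hL : IsLB n L) (h : IsSec n L s) {a : L.ι} (ha : x ∈ L.U a) :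
    ¬ NZ L s x ↔ s a x = 0 :=
  (not_congr (nz_iff hL (fun a b => h.change a b x) ha)).trans not_not

theorem Ml.liso {φ : M.ι → N.ι} {ψ : M.ι → A.ι} (h : Ml n M N A φ ψ) : LIso n M (N.mul A) :=
  liso_of_map' (lb_mul h.lN h.lA) (fun a => (φ a, ψ a)) (fun a _ k => ⟨h.sN a k, h.sA a k⟩)
    fun a b x ha hb => (h.g a b x ha hb).symm

theorem Ml.pull {φ : M.ι → N.ι} {ψ : M.ι → A.ι} (h : Ml n M N A φ ψ) (hi : HolM m n i) :
    Ml m (pull i M) (pull i N) (pull i A) φ ψ :=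
  ⟨hi.lb h.lM, hi.lb h.lN, hi.lb h.lA, fun a _ k => h.sN a k, fun a _ k => h.sA a k,
    fun a b z => h.g a b (i z)⟩

theorem ml_mul (hN : IsLB n N) (hA : IsLB n A) : Ml n (N.mul A) N A Prod.fst Prod.snd :=
  ⟨lb_mul hN hA, hN, hA, fun _ _ k => k.1, fun _ _ k => k.2, fun _ _ _ _ _ => rfl⟩

theorem ml_pow (h : IsLB n L) (j k : ℕ) : Ml n (L.pow (j + k)) (L.pow j) (L.pow k) id id :=
  ⟨lb_pow h _, lb_pow h _, lb_pow h _, fun _ _ k => k, fun _ _ k => k, fun _ _ _ _ _ => pow_add _ _ _⟩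

theorem ml_succ (h : IsLB n L) (k : ℕ) : Ml n (L.pow (k + 1)) (L.pow k) L id id :=
  ⟨lb_pow h _, lb_pow h _, h, fun _ _ k => k, fun _ _ k => k, fun _ _ _ _ _ => pow_succ _ _⟩

theorem zpow_single {α : Type} [Fintype α] [DecidableEq α] {g : α → ℂ} (h : ∀ j, g j ≠ 0)
    (k : α → ℤ) (j : α) : ∏ l, g l ^ (k + Pi.single j 1 : α → ℤ) l = (∏ l, g l ^ k l) * g j := by
  simp only [Pi.add_apply, zpow_add₀ (h _), Finset.prod_mul_distrib]
  rw [Finset.prod_eq_single (f := fun l => g l ^ (Pi.single j 1 : α → ℤ) l) j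
    (fun l _ e => by rw [Pi.single_eq_of_ne e, zpow_zero]) (by simp), Pi.single_eq_same, zpow_one]

theorem ml_lin {α : Type} [Fintype α] [DecidableEq α] {H : α → Bd X} (hN : IsLB n N)
    (hH : ∀ j, IsLB n (H j)) (k : α → ℤ) (j : α) :
    Ml n (N.mul (lin H (k + Pi.single j 1))) (N.mul (lin H k)) (H j) (fun a => (a.1, a.2))
      fun a => a.2 j :=
  ⟨lb_mul hN (lb_lin hH _), lb_mul hN (lb_lin hH _), hH j, fun _ _ h => ⟨h.1, h.2⟩,
    fun _ _ h => h.2 j, fun a b x ha hb => by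
      change N.g _ _ x * ∏ l, (H l).g _ _ x ^ (k + Pi.single j 1 : α → ℤ) l =
        N.g _ _ x * (∏ l, (H l).g _ _ x ^ k l) * _
      rw [zpow_single (fun l => (hH l).ne_zero _ _ x (ha.2 l) (hb.2 l)) k j, mul_assoc]⟩

theorem lz_id (h : IsLB n L) : Lz n id L L.g :=
  ⟨holM_id, fun _ => rfl, h, ⟨fun _ _ _ => lb_hol h, h.ne_zero, fun a a' b b' x h1 h2 h3 h4 =>
    (h.cocycle a b b' x h1 h3 h4).trans (h.cocycle a a' b' x h1 h2 h4).symm⟩, h.cocycle⟩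

theorem Γs_id : Γs n id L L.g = Γ n L := inf_eq_left.2 fun _ h => h.1.change

theorem Lz.pull {σ : X → X} {τ : Z → Z} {u : L.ι → L.ι → X → ℂ} (h : Lz n σ L u) (hi : HolM m n i)
    (hj : Function.Injective i) (hτ : HolM m m τ) (e : ∀ z, i (τ z) = σ (i z)) :
    Lz m τ (pull i L) fun a b z => u a b (i z) := by
  have k : ∀ {z b}, i (τ z) ∈ L.U b → σ (i z) ∈ L.U b := fun h => e _ ▸ h
  refine ⟨hτ, fun z => hj (by rw [e, e, h.inv]), hi.lb h.lb,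
    ⟨fun a b z ha hb => hi.hol (h.rel.hol a b _ ha (k hb)), fun a b z ha hb => h.rel.ne a b _ ha (k hb),
      fun a a' b b' z h1 h2 h3 h4 => ?_⟩, fun a b c z ha hb hc => ?_⟩
  · change _ * L.g b b' (i (τ z)) = _
    rw [e]
    exact h.rel.chg a a' b b' _ h1 h2 (k h3) (k h4)
  · rw [e]
    exact h.sq a b c _ ha (k hb) hc

theorem res_mems {σ : X → X} {τ : Z → Z} {u : L.ι → L.ι → X → ℂ} (hi : HolM m n i)
    (e : ∀ z, i (τ z) = σ (i z)) (h : s ∈ Γs n σ L u) :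
    res i L s ∈ Γs m τ (pull i L) fun a b z => u a b (i z) :=
  ⟨res_mem hi h.1, fun a b z ha hb => by
    change s a (i z) = u a b (i z) * s b (i (τ z))
    rw [e]
    exact h.2 a b _ ha (e z ▸ (hb : i (τ z) ∈ L.U b))⟩

theorem lz_lin {α : Type} [Fintype α] {σ : X → X} {H : α → Bd X} {t : N.ι → N.ι → X → ℂ}
    {u : ∀ j, (H j).ι → (H j).ι → X → ℂ} (hN : Lz n σ N t) (hH : ∀ j, Lz n σ (H j) (u j))
    (k : α → ℤ) : Lz n σ (N.mul (lin H k)) (tl t u k) where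
  hol := hN.hol
  inv := hN.inv
  lb := lb_mul hN.lb (lb_lin (fun j => (hH j).lb) k)
  rel := ⟨fun a b x ha hb => (hN.rel.hol _ _ x ha.1 hb.1).mul (Hol.prod _ fun j _ =>
      ((hH j).rel.hol _ _ x (ha.2 j) (hb.2 j)).zpow ((hH j).rel.ne _ _ x (ha.2 j) (hb.2 j)) _),
    fun a b x ha hb => mul_ne_zero (hN.rel.ne _ _ x ha.1 hb.1) (Finset.prod_ne_zero_iff.2
      fun j _ => zpow_ne_zero _ ((hH j).rel.ne _ _ x (ha.2 j) (hb.2 j))),
    fun a a' b b' x h1 h2 h3 h4 => by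
      change _ * (∏ j, _) * (N.g _ _ (σ x) * ∏ j, (H j).g _ _ (σ x) ^ k j) =
        N.g _ _ x * (∏ j, (H j).g _ _ x ^ k j) * (_ * ∏ j, _)
      rw [mul_mul_mul_comm, mul_mul_mul_comm (N.g _ _ x), ← Finset.prod_mul_distrib,
        ← Finset.prod_mul_distrib]
      exact congrArg₂ _ (hN.rel.chg _ _ _ _ x h1.1 h2.1 h3.1 h4.1) (Finset.prod_congr rfl fun j _ => by
        rw [← mul_zpow, ← mul_zpow]
        exact congrArg (· ^ k j) ((hH j).rel.chg _ _ _ _ x (h1.2 j) (h2.2 j) (h3.2 j) (h4.2 j)))⟩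
  sq a b c x ha hb hc := by
    change _ * (∏ j, _) * (_ * ∏ j, _) = N.g _ _ x * ∏ j, (H j).g _ _ x ^ k j
    rw [mul_mul_mul_comm, ← Finset.prod_mul_distrib]
    exact congrArg₂ _ (hN.sq _ _ _ x ha.1 hb.1 hc.1) (Finset.prod_congr rfl fun j _ => by
      rw [← mul_zpow, (hH j).sq _ _ _ x (ha.2 j) (hb.2 j) (hc.2 j)])

end Vale.Agent.P280Z.Ld

namespace Vale.Agent.P280Z.Cut

variable {m n : ℕ} {V : Mf m} {Z : Mf n} {A : Bd V.X} {σ : A.ι → V.X → ℂ} {i : Z.X → V.X}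

theorem zero (h : Cut A σ i) (z : Z.X) {a : A.ι} (ha : i z ∈ A.U a) : σ a (i z) = 0 :=
  (Ld.not_nz h.lb h.sec ha).1 (h.emb.mem z)

theorem ex (h : Cut A σ i) {x : V.X} {a : A.ι} (ha : x ∈ A.U a) (k : σ a x = 0) : ∃ z, i z = x :=
  h.emb.ex ((Ld.not_nz h.lb h.sec ha).2 k)

theorem isDiv (h : Cut A σ i) : IsDiv m {x | ¬ NZ A σ x} A σ :=
  ⟨h.lb, h.sec, fun a _ ha => ⟨(lb_near h.lb ha).mono fun _ k => (Ld.not_nz h.lb h.sec k).symm,
    fun e he => ⟨sec_hol h.sec ha e he, fun k => by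
      obtain ⟨z, rfl⟩ := h.ex ha k
      exact h.tr z a ha e he⟩⟩⟩

theorem nm (h : Cut A σ i) : Cut A (Ld.nm A σ) i :=
  ⟨h.dim, h.lb, (Ld.nm_mem h.lb h.sec).1, by simpa only [Ld.nm_nz] using h.emb, fun z a ha e he => by
    rw [P277Z.Slc.dd_congr ((lb_near h.lb ha).mono fun _ k => Ld.nm_of k) he]
    exact h.tr z a ha e he⟩

end Vale.Agent.P280Z.Cut
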